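import Vale.Agent.P313.H638.Pool

/-!
The analysis half of the final assembly of the medium width theorem.
-/

namespace Vale.Agent.P313.MW.H638

open Finset

theorem dsum_self (Q a m : ℕ) : dsum Q (fun e => a / Q ^ e % Q) m = a % Q ^ m := by
  induction m with
  | zero => simp [dsum, Nat.mod_one]
  | succ m ih =>
    have h1 : dsum Q (fun e => a / Q ^ e % Q) (m + 1) =
        dsum Q (fun e => a / Q ^ e % Q) m + a / Q ^ m % Q * Q ^ m := sum_range_succ _ _
    rw [h1, ih, Nat.mod_pow_succ, mul_comm (Q ^ m)]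

/-- All checks of the pool number `z` succeed. -/
def Checks (π : Prm) (X : ℕ) (bs : ℕ → ℕ → ℕ) (z : ℕ) : Prop :=
  ∀ k < π.s, ∀ A < π.n ^ (π.s - k - 1),
    π.V X (alz π.Q z) (bez π.Q z) bs (k * π.LP + 9) A (pk X [3, 0, 0, 0, 0, 0, 0, 0]) ≠ 0

/-- The value of the last stage. -/
def fin (π : Prm) (X : ℕ) (bs : ℕ → ℕ → ℕ) (z u v : ℕ) : ℕ :=
  ∑ e ∈ range (π.J + 1),
    π.V X (alz π.Q z) (bez π.Q z) bs (π.s * π.LP) 0 (pk X [0, 0, 0, 0, u, v, e, 0]) * π.Q ^ e

theorem nxt_lt {π : Prm} (hQ : 0 < π.Q) (al be : ℕ → ℕ) (mm : ℕ → ℕ → ℕ → ℕ) (u v : ℕ) :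
    π.nxt al be mm u v < π.Q ^ (π.J + 1) :=
  Nat.mod_lt _ (Nat.pow_pos hQ)

theorem stg_lt {π : Prm} (hQ : 0 < π.Q) (al be : ℕ → ℕ) (B0 : ℕ → ℕ → ℕ → ℕ) {k : ℕ}
    (hk : 1 ≤ k) (A u v : ℕ) : π.stg al be B0 k A u v < π.Q ^ (π.J + 1) := by
  obtain ⟨k, rfl⟩ : ∃ k', k = k' + 1 := ⟨k - 1, by omega⟩
  exact nxt_lt hQ al be (fun p u v => π.stg al be B0 k (A * π.n + p) u v) u v

section
variable (hV : ModV) (hT : ModT) (hN : ModN) (x : List Bool) (lam W K g : ℕ)
include hV hT hN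

/-- The checks are the tests of all blocks. -/
theorem checks_iff (bs : ℕ → ℕ → ℕ)
    (hbs : ∀ A, ∀ u < (thePrm lam W g).N, ∀ v < (thePrm lam W g).N, ∀ e < theX lam W g,
      bs A (pk (theX lam W g) [0, 0, 0, 0, u, v, e, 0]) =
        baseM (thePrm lam W g).Q (thePrm lam W g).J x lam W K g A u v /
          (thePrm lam W g).Q ^ e % (thePrm lam W g).Q) (z : ℕ) :
    Checks (thePrm lam W g) (theX lam W g) bs z ↔
      ∀ k < (thePrm lam W g).s, ∀ A < (thePrm lam W g).n ^ ((thePrm lam W g).s - k - 1),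
        (thePrm lam W g).found (alz (thePrm lam W g).Q z) (bez (thePrm lam W g).Q z)
          (fun p u v => (thePrm lam W g).stg (alz (thePrm lam W g).Q z)
            (bez (thePrm lam W g).Q z)
            (fun A u v => baseM (thePrm lam W g).Q (thePrm lam W g).J x lam W K g A u v) k
            (A * (thePrm lam W g).n + p) u v) := by
  obtain ⟨hNum, hBig, -⟩ := hN.1 lam W g
  have hQ2 := hBig.Q2
  have hv := hV (thePrm lam W g) (theX lam W g) (alz (thePrm lam W g).Q z)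
    (bez (thePrm lam W g).Q z) bs
    (fun A u v => baseM (thePrm lam W g).Q (thePrm lam W g).J x lam W K g A u v) hBig hbs
    (fun A u v => (hT x lam W K g).1 _ _ _ _ _ hQ2)
  exact ⟨fun h k hk A hA => (hv k A).2.1 (h k hk A hA),
    fun h k hk A hA => (hv k A).2.2 (h k hk A hA)⟩

/-- The value of the last stage is near the product. -/
theorem fin_near (hK2 : ModK2) (bs : ℕ → ℕ → ℕ)
    (hbs : ∀ A, ∀ u < (thePrm lam W g).N, ∀ v < (thePrm lam W g).N, ∀ e < theX lam W g,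
      bs A (pk (theX lam W g) [0, 0, 0, 0, u, v, e, 0]) =
        baseM (thePrm lam W g).Q (thePrm lam W g).J x lam W K g A u v /
          (thePrm lam W g).Q ^ e % (thePrm lam W g).Q) {z : ℕ}
    (hsub : SubSt x lam W K g) (hc : Checks (thePrm lam W g) (theX lam W g) bs z) {u v : ℕ}
    (hu : u < 2 ^ W) (hv : v < 2 ^ W) :
    |(fin (thePrm lam W g) (theX lam W g) bs z u v : ℚ) /
        ((thePrm lam W g).Q : ℚ) ^ (thePrm lam W g).J - prodM x W K g (2 ^ lam) u v| <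
      1 / 2 ^ (g + 1) := by
  have hf := (checks_iff hV hT hN x lam W K g bs hbs z).1 hc
  obtain ⟨hNum, hBig, hs2, -, -, -, -, herr⟩ := hN.1 lam W g
  have hQ2 := hBig.Q2
  have hvv := hV (thePrm lam W g) (theX lam W g) (alz (thePrm lam W g).Q z)
    (bez (thePrm lam W g).Q z) bs
    (fun A u v => baseM (thePrm lam W g).Q (thePrm lam W g).J x lam W K g A u v) hBig hbs
    (fun A u v => (hT x lam W K g).1 _ _ _ _ _ hQ2)
  obtain ⟨hT1, hT2, hT3, hT4⟩ := hT x lam W K g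
  set π := thePrm lam W g with hπ
  set X := theX lam W g with hX
  have hN' : π.N = 2 ^ W + 1 := rfl
  have hn : π.n ^ π.s = 2 ^ (π.s ^ 2) := by
    show (2 ^ π.s) ^ π.s = _
    rw [← pow_mul, pow_two]
  clear_value π X
  -- the value
  have hfin : fin π X bs z u v = π.stg (alz π.Q z) (bez π.Q z)
      (fun A u v => baseM π.Q π.J x lam W K g A u v) π.s 0 u v := by
    have h1 : ∀ e ∈ range (π.J + 1),
        π.V X (alz π.Q z) (bez π.Q z) bs (π.s * π.LP) 0 (pk X [0, 0, 0, 0, u, v, e, 0]) *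
          π.Q ^ e =
        π.stg (alz π.Q z) (bez π.Q z) (fun A u v => baseM π.Q π.J x lam W K g A u v) π.s 0 u v /
          π.Q ^ e % π.Q * π.Q ^ e := by
      intro e he
      have he' : e < X := by
        have h2 : π.J + 1 ≤ π.F := by
          unfold Prm.F
          calc π.J + 1 ≤ (π.J + 4) * 1 := by omega
            _ ≤ (π.J + 4) * 2 ^ π.D := Nat.mul_le_mul_left _ Nat.one_le_two_pow
        have h3 := hBig.FX
        have h4 := mem_range.1 he
        omega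
      rw [(hvv π.s 0).1 u (by omega) v (by omega) e he']
    unfold fin
    rw [sum_congr rfl h1]
    have h2 := dsum_self π.Q (π.stg (alz π.Q z) (bez π.Q z)
      (fun A u v => baseM π.Q π.J x lam W K g A u v) π.s 0 u v) (π.J + 1)
    unfold dsum at h2
    rw [h2]
    have hQ0 : 0 < π.Q := lt_of_lt_of_le Nat.zero_lt_two hQ2
    have h3 := stg_lt hQ0 (alz π.Q z) (bez π.Q z)
      (fun A u v => baseM π.Q π.J x lam W K g A u v) hNum.s1 0 u v
    rw [Nat.mod_eq_of_lt h3]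
  have h1 := hK2 π _ (alz π.Q z) (bez π.Q z)
    (fun A u v => baseM π.Q π.J x lam W K g A u v) (trueM x lam W K g) π.s hNum le_rfl
    (hN' ▸ hT3 hsub (π.n ^ π.s)) (fun A _ u _ v _ => hT2 π.Q π.J A u v hQ2) π.s le_rfl
    (fun k' hk' A hA => hf k' hk' A hA) 0 (by rw [Nat.sub_self, pow_zero]; exact Nat.one_pos)
    u (by omega) v (by omega)
  rw [zero_mul, hN', hT4 hsub (π.n ^ π.s) (by
    rw [hn]
    exact Nat.pow_le_pow_right (by norm_num) (by omega)) u hu v hv, ← hN', ← hfin] at h1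
  exact h1.trans_lt herr

/-- The decision. -/
theorem decide (hK2 : ModK2) (bs : ℕ → ℕ → ℕ)
    (hbs : ∀ A, ∀ u < (thePrm lam W g).N, ∀ v < (thePrm lam W g).N, ∀ e < theX lam W g,
      bs A (pk (theX lam W g) [0, 0, 0, 0, u, v, e, 0]) =
        baseM (thePrm lam W g).Q (thePrm lam W g).J x lam W K g A u v /
          (thePrm lam W g).Q ^ e % (thePrm lam W g).Q) {z : ℕ}
    (hsub : SubSt x lam W K g) (hc : Checks (thePrm lam W g) (theX lam W g) bs z) {u v : ℕ}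
    (hu : u < 2 ^ W) (hv : v < 2 ^ W) (c : ℕ) :
    ((((c : ℚ) + 1) / 2 ^ g ≤ prodM x W K g (2 ^ lam) u v →
      (2 * c + 1) * (thePrm lam W g).Q ^ (thePrm lam W g).J <
        2 ^ (g + 1) * fin (thePrm lam W g) (theX lam W g) bs z u v) ∧
    (prodM x W K g (2 ^ lam) u v ≤ (c : ℚ) / 2 ^ g →
      ¬ (2 * c + 1) * (thePrm lam W g).Q ^ (thePrm lam W g).J <
        2 ^ (g + 1) * fin (thePrm lam W g) (theX lam W g) bs z u v)) := by
  have h1 := fin_near hV hT hN x lam W K g hK2 bs hbs hsub hc hu hv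
  have hQ2 := (hN.1 lam W g).2.1.Q2
  set π := thePrm lam W g with hπ
  set F := fin π (theX lam W g) bs z u v with hF
  clear_value F
  clear_value π
  have hQ : (0 : ℚ) < (π.Q : ℚ) ^ π.J := by
    have h0 : 0 < π.Q := lt_of_lt_of_le Nat.zero_lt_two hQ2
    exact pow_pos (Nat.cast_pos.2 h0) _
  have hg : (0 : ℚ) < 2 ^ (g + 1) := by positivity
  rw [abs_lt] at h1
  have e1 : (2 : ℚ) ^ (g + 1) = 2 * 2 ^ g := by rw [pow_succ]; ring
  have hg0 : (0 : ℚ) < 2 ^ g := by positivity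
  constructor
  · intro h2
    have h3 : ((2 * c + 1 : ℕ) : ℚ) / 2 ^ (g + 1) < (F : ℚ) / (π.Q : ℚ) ^ π.J := by
      have h4 : ((2 * c + 1 : ℕ) : ℚ) / 2 ^ (g + 1) =
          ((c : ℚ) + 1) / 2 ^ g - 1 / 2 ^ (g + 1) := by
        rw [e1]; push_cast; field_simp; ring
      rw [h4]
      linarith [h1.1]
    rw [div_lt_div_iff₀ hg hQ] at h3
    have h5 : ((2 * c + 1) * π.Q ^ π.J : ℕ) < (F * 2 ^ (g + 1) : ℕ) := by exact_mod_cast h3
    rw [mul_comm (2 ^ (g + 1)) F]
    exact h5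
  · intro h2 h6
    have h3 : (F : ℚ) / (π.Q : ℚ) ^ π.J < ((2 * c + 1 : ℕ) : ℚ) / 2 ^ (g + 1) := by
      have h4 : ((2 * c + 1 : ℕ) : ℚ) / 2 ^ (g + 1) = (c : ℚ) / 2 ^ g + 1 / 2 ^ (g + 1) := by
        rw [e1]; push_cast; field_simp
      rw [h4]
      linarith [h1.2]
    rw [div_lt_div_iff₀ hQ hg] at h3
    have h5 : (F * 2 ^ (g + 1) : ℕ) < ((2 * c + 1) * π.Q ^ π.J : ℕ) := by exact_mod_cast h3
    rw [mul_comm (2 ^ (g + 1)) F] at h6
    omega

/-- Some pool number passes all checks. -/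
theorem exists_checks (hK3 : ModK3) (bs : ℕ → ℕ → ℕ)
    (hbs : ∀ A, ∀ u < (thePrm lam W g).N, ∀ v < (thePrm lam W g).N, ∀ e < theX lam W g,
      bs A (pk (theX lam W g) [0, 0, 0, 0, u, v, e, 0]) =
        baseM (thePrm lam W g).Q (thePrm lam W g).J x lam W K g A u v /
          (thePrm lam W g).Q ^ e % (thePrm lam W g).Q)
    (hsub : SubSt x lam W K g) :
    ∃ z < theM lam W g, Checks (thePrm lam W g) (theX lam W g) bs z := by
  obtain ⟨hNum, hBig, hs2, -, -, hQM, -⟩ := hN.1 lam W g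
  obtain ⟨hT1, hT2, hT3, hT4⟩ := hT x lam W K g
  obtain ⟨z, hz, hf⟩ := pool_num hK3 (π := thePrm lam W g)
    (B0 := fun A u v => baseM (thePrm lam W g).Q (thePrm lam W g).J x lam W K g A u v)
    (M := trueM x lam W K g) hNum (hT3 hsub _) (fun A _ u _ v _ => hT2 _ _ A u v hBig.Q2)
  refine ⟨z, hz.trans_le (le_trans (Nat.pow_le_pow_right ?_ (by omega)) hQM),
    (checks_iff hV hT hN x lam W K g bs hbs z).2 hf⟩
  have := hBig.Q2
  omega

end

end Vale.Agent.P313.MW.H638
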