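import Vale.Agent.P313.H638.G7
import Vale.Agent.P313.H72.MWf

/-!
Medium width: the final statements.
-/

namespace Vale.Agent.P313.MW

theorem final_input_thr {lam W K g r : ℕ → ℕ} (hlam : LogConstructible lam)
    (hW : LogConstructible W) (hK : LogConstructible K) (hg : LogConstructible g)
    (hr : LogConstructible r) (hrg : ∀ n, r n ≤ g n + W n) :
    ∃ (A : Set (List Bool)) (D : RTM) (e : ℝ),
      D.Decides A (fun n => (2 : ℝ) ^ (e * theS lam W g n)) (fun n => e * theS lam W g n) ∧
      ∀ x : List Bool, SubSt x (lam x.length) (W x.length) (K x.length) (r x.length) →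
        (((num x (2 * W x.length) (r x.length + 1) : ℚ) + 1) / 2 ^ r x.length ≤
          prodM x (W x.length) (K x.length) (r x.length) (2 ^ lam x.length)
            (num x 0 (W x.length)) (num x (W x.length) (W x.length)) → x ∈ A) ∧
        (prodM x (W x.length) (K x.length) (r x.length) (2 ^ lam x.length)
            (num x 0 (W x.length)) (num x (W x.length) (W x.length)) ≤
          (num x (2 * W x.length) (r x.length + 1) : ℚ) / 2 ^ r x.length → x ∉ A) :=
  input_thr H157.modV H577.modL H146.modN H72.modK2 H72.modK3 hlam hW hK hg hr hrg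

theorem final_input_bits {lam W K g r : ℕ → ℕ} (hlam : LogConstructible lam)
    (hW : LogConstructible W) (hK : LogConstructible K) (hg : LogConstructible g)
    (hr : LogConstructible r) (hrg : ∀ n, r n ≤ g n + W n) :
    ∃ (R : ℕ → (ℕ → ℕ → ℕ → ℕ) → ℕ → ℕ → ℕ) (D : RTM) (e : ℝ),
      D.Decides {x | R x.length
          (fun t u v => entry x (W x.length) (K x.length) (r x.length) t u v)
          (num x 0 (W x.length)) (num x (W x.length) (W x.length)) /
            2 ^ num x (2 * W x.length) (r x.length + 1) % 2 = 1}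
        (fun n => (2 : ℝ) ^ (e * theS lam W g n)) (fun n => e * theS lam W g n) ∧
      ∀ x : List Bool, SubSt x (lam x.length) (W x.length) (K x.length) (r x.length) →
        ∀ u < 2 ^ W x.length, ∀ v < 2 ^ W x.length,
          |(R x.length (fun t u v => entry x (W x.length) (K x.length) (r x.length) t u v) u v :
              ℚ) / 2 ^ r x.length -
            prodM x (W x.length) (K x.length) (r x.length) (2 ^ lam x.length) u v| ≤
            1 / 2 ^ r x.length := by
  obtain ⟨h1, D, e, h2⟩ := input_bits H157.modV H577.modL H146.modN H72.modK2 H72.modK3 hlam hW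
    hK hg hr hrg
  exact ⟨appG lam W K g r, D, e, h2, h1⟩

theorem final_machine {lam W g : ℕ → ℕ} (hlam : LogConstructible lam) (hW : LogConstructible W)
    (hg : LogConstructible g) {a b : ℕ} (hb : 0 < b) {M : RTM} {c : ℕ}
    (hM : M.Bounded (fun n => (n + 2) ^ c) (fun n => c * Nat.log 2 (n + 2)))
    {Dt : Finset (Fin M.tapes)} (hC : M.Carries Dt W)
    (hcoin : ∀ (x : List Bool) (v : Bool),
      M.probAt x v ((x.length + 2) ^ c) (2 ^ lam x.length + 1) M.init = 0) :
    ∃ (A : Set (List Bool)) (D : RTM) (e : ℝ),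
      D.Decides A (fun n => (2 : ℝ) ^ (e * theS lam W g n)) (fun n => e * theS lam W g n) ∧
      ∀ x : List Bool,
        ((a : ℚ) / b + 1 / 2 ^ g x.length ≤ M.probAt x true ((x.length + 2) ^ c) 0 M.init →
          x ∈ A) ∧
        (M.probAt x true ((x.length + 2) ^ c) 0 M.init ≤ (a : ℚ) / b - 1 / 2 ^ g x.length →
          x ∉ A) :=
  machine_thr H157.modV H577.modL H146.modN H72.modK2 H72.modK3 hlam hW hg hb hM hC hcoin

theorem final_bpl {A : Set (List Bool)} {M : RTM} {c k : ℕ}
    (hM : M.Bounded (fun n => (n + 2) ^ c) (fun n => c * Nat.log 2 (n + 2)))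
    {Dt : Finset (Fin M.tapes)} (hC : M.Carries Dt (fun n => k * Nat.sqrt (Nat.log 2 (n + 2))))
    (hA : ∀ x : List Bool,
      (x ∈ A → 2 / 3 ≤ M.probAt x true ((x.length + 2) ^ c) 0 M.init) ∧
      (x ∉ A → M.probAt x true ((x.length + 2) ^ c) 0 M.init ≤ 1 / 3)) :
    ∃ (D : RTM) (e : ℝ), D.Decides A
      (fun n => (2 : ℝ) ^ (e * (Real.logb 2 (n + 2) * Real.logb 2 (Real.logb 2 (n + 2) + 1))))
      (fun n => e * (Real.logb 2 (n + 2) * Real.logb 2 (Real.logb 2 (n + 2) + 1))) :=
  bpl_small H157.modV H577.modL H146.modN H72.modK2 H72.modK3 hM hC hA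

end Vale.Agent.P313.MW
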