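import Vale.Agent.P313.H463.MW.MStmt

/-!
Medium width for arbitrary families of matrices, part 1: the true matrices.
-/

namespace Vale.Agent.P313.MW

open Finset

/-- The product of the first `t` matrices of size `2 ^ W` with numerators `E` and denominator
`2 ^ K`. -/
def prodG (E : ℕ → ℕ → ℕ → ℕ) (W K : ℕ) : ℕ → ℕ → ℕ → ℚ
  | 0, u, v => if u = v then 1 else 0
  | t + 1, u, v => ∑ s ∈ range (2 ^ W), prodG E W K t u s * ((E t s v : ℚ) / 2 ^ K)

/-- The first `2 ^ lam` matrices are substochastic. -/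
def SubG (E : ℕ → ℕ → ℕ → ℕ) (lam W K : ℕ) : Prop :=
  ∀ t < 2 ^ lam, ∀ u < 2 ^ W, ∑ v ∈ range (2 ^ W), E t u v ≤ 2 ^ K

/-- Numerators of the matrices with a sink (state `2 ^ W`), identity matrices from `2 ^ lam` on. -/
def numG (E : ℕ → ℕ → ℕ → ℕ) (lam W K t u v : ℕ) : ℕ :=
  if t < 2 ^ lam ∧ u < 2 ^ W then
    (if v < 2 ^ W then min (E t u v) (2 ^ K)
    else if v = 2 ^ W then 2 ^ K - ∑ v ∈ range (2 ^ W), E t u v else 0)
  else if u = v then 2 ^ K else 0

/-- The true matrices. -/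
def trueG (E : ℕ → ℕ → ℕ → ℕ) (lam W K t u v : ℕ) : ℚ := (numG E lam W K t u v : ℚ) / 2 ^ K

/-- The matrices at the bottom of the recursion. -/
def baseG (Q J : ℕ) (E : ℕ → ℕ → ℕ → ℕ) (lam W K t u v : ℕ) : ℕ :=
  numG E lam W K t u v * Q ^ J / 2 ^ K

variable {E : ℕ → ℕ → ℕ → ℕ} {lam W K : ℕ}

theorem numG_le (E : ℕ → ℕ → ℕ → ℕ) (lam W K t u v : ℕ) : numG E lam W K t u v ≤ 2 ^ K := by
  unfold numG
  split_ifs
  · exact min_le_right _ _
  · exact Nat.sub_le _ _
  · exact Nat.zero_le _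
  · exact le_rfl
  · exact Nat.zero_le _

theorem baseG_lt {Q : ℕ} (hQ : 2 ≤ Q) (J : ℕ) (E : ℕ → ℕ → ℕ → ℕ) (lam W K A u v : ℕ) :
    baseG Q J E lam W K A u v < Q ^ (J + 1) := by
  unfold baseG
  rw [Nat.div_lt_iff_lt_mul (by positivity)]
  have h1 := numG_le E lam W K A u v
  have hQJ : 0 < Q ^ J := Nat.pow_pos (by omega)
  have h2 : 0 < 2 ^ K := Nat.two_pow_pos K
  calc numG E lam W K A u v * Q ^ J ≤ 2 ^ K * Q ^ J := Nat.mul_le_mul_right _ h1
    _ = 1 * (Q ^ J * 2 ^ K) := by ring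
    _ < Q * (Q ^ J * 2 ^ K) := Nat.mul_lt_mul_of_pos_right (by omega) (by positivity)
    _ = Q ^ (J + 1) * 2 ^ K := by rw [pow_succ]; ring

theorem baseG_near {Q : ℕ} (hQ : 2 ≤ Q) (J : ℕ) (E : ℕ → ℕ → ℕ → ℕ) (lam W K A u v : ℕ) :
    |(baseG Q J E lam W K A u v : ℚ) / (Q : ℚ) ^ J - trueG E lam W K A u v| ≤
      1 / (Q : ℚ) ^ J := by
  have hQ' : (0 : ℚ) < (Q : ℚ) ^ J := by
    have : (0 : ℚ) < Q := by exact_mod_cast (by omega : 0 < Q)
    positivity
  have h2 : (0 : ℚ) < 2 ^ K := by positivity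
  have hlo := Nat.div_mul_le_self (numG E lam W K A u v * Q ^ J) (2 ^ K)
  have hhi := Nat.lt_div_mul_add (a := numG E lam W K A u v * Q ^ J)
    (b := 2 ^ K) (by positivity)
  have hlo' : (baseG Q J E lam W K A u v : ℚ) * 2 ^ K ≤
      (numG E lam W K A u v : ℚ) * (Q : ℚ) ^ J := by
    exact_mod_cast hlo
  have hhi' : (numG E lam W K A u v : ℚ) * (Q : ℚ) ^ J <
      (baseG Q J E lam W K A u v : ℚ) * 2 ^ K + 2 ^ K := by
    exact_mod_cast hhi
  have e : (baseG Q J E lam W K A u v : ℚ) / (Q : ℚ) ^ J - trueG E lam W K A u v =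
      ((baseG Q J E lam W K A u v : ℚ) * 2 ^ K -
        (numG E lam W K A u v : ℚ) * (Q : ℚ) ^ J) / ((Q : ℚ) ^ J * 2 ^ K) := by
    unfold trueG
    field_simp
  rw [e, abs_div, abs_of_pos (mul_pos hQ' h2), div_le_div_iff₀ (mul_pos hQ' h2) hQ', one_mul]
  have h3 : |(baseG Q J E lam W K A u v : ℚ) * 2 ^ K -
      (numG E lam W K A u v : ℚ) * (Q : ℚ) ^ J| ≤ 2 ^ K := by
    rw [abs_le]
    constructor <;> linarith
  calc _ ≤ 2 ^ K * (Q : ℚ) ^ J := mul_le_mul_of_nonneg_right h3 hQ'.le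
    _ = _ := by ring

theorem SubG.entry_le (h : SubG E lam W K) {t u v : ℕ} (ht : t < 2 ^ lam) (hu : u < 2 ^ W)
    (hv : v < 2 ^ W) : E t u v ≤ 2 ^ K :=
  (single_le_sum (f := fun v => E t u v) (fun _ _ => Nat.zero_le _) (mem_range.2 hv)).trans
    (h t ht u hu)

theorem numG_sum (h : SubG E lam W K) (t : ℕ) {u : ℕ} (hu : u < 2 ^ W + 1) :
    ∑ v ∈ range (2 ^ W + 1), numG E lam W K t u v = 2 ^ K := by
  by_cases hc : t < 2 ^ lam ∧ u < 2 ^ W
  · have h1 : ∀ v ∈ range (2 ^ W), numG E lam W K t u v = E t u v := by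
      intro v hv
      unfold numG
      rw [if_pos hc, if_pos (mem_range.1 hv), min_eq_left (h.entry_le hc.1 hc.2 (mem_range.1 hv))]
    have h2 : numG E lam W K t u (2 ^ W) =
        2 ^ K - ∑ v ∈ range (2 ^ W), E t u v := by
      unfold numG
      rw [if_pos hc, if_neg (lt_irrefl _), if_pos rfl]
    rw [sum_range_succ, sum_congr rfl h1, h2]
    exact Nat.add_sub_of_le (h t hc.1 u hc.2)
  · have h1 : ∀ v ∈ range (2 ^ W + 1), numG E lam W K t u v = if u = v then 2 ^ K else 0 := by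
      intro v _
      unfold numG
      rw [if_neg hc]
    rw [sum_congr rfl h1, sum_ite_eq, if_pos (mem_range.2 hu)]

theorem stoch_trueG (h : SubG E lam W K) (m : ℕ) : Stoch (2 ^ W + 1) m (trueG E lam W K) := by
  intro p _ u hu
  refine ⟨fun v _ => by unfold trueG; positivity, ?_⟩
  unfold trueG
  rw [← sum_div, ← Nat.cast_sum, numG_sum h p hu, Nat.cast_pow, Nat.cast_ofNat,
    div_self (by positivity)]

theorem prq_trueG_le (h : SubG E lam W K) {t : ℕ} (ht : t ≤ 2 ^ lam) {u v : ℕ} (hv : v < 2 ^ W) :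
    prq (2 ^ W + 1) (trueG E lam W K) 0 t u v = prodG E W K t u v := by
  induction t generalizing v with
  | zero => rfl
  | succ t ih =>
    show ∑ s ∈ range (2 ^ W + 1), prq (2 ^ W + 1) (trueG E lam W K) 0 t u s *
      trueG E lam W K (0 + t) s v =
      ∑ s ∈ range (2 ^ W), prodG E W K t u s * ((E t s v : ℚ) / 2 ^ K)
    rw [zero_add, sum_range_succ]
    have h1 : trueG E lam W K t (2 ^ W) v = 0 := by
      unfold trueG numG
      rw [if_neg (by omega), if_neg (by omega), Nat.cast_zero, zero_div]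
    rw [h1, mul_zero, add_zero]
    refine sum_congr rfl fun s hs => ?_
    have hs' := mem_range.1 hs
    rw [ih (by omega) hs']
    congr 1
    unfold trueG numG
    rw [if_pos ⟨by omega, hs'⟩, if_pos hv, min_eq_left (h.entry_le (by omega) hs' hv)]

theorem prq_trueG_ge (E : ℕ → ℕ → ℕ → ℕ) (lam W K : ℕ) {t : ℕ} (ht : 2 ^ lam ≤ t) {u v : ℕ}
    (hv : v < 2 ^ W) :
    prq (2 ^ W + 1) (trueG E lam W K) 0 t u v =
      prq (2 ^ W + 1) (trueG E lam W K) 0 (2 ^ lam) u v := by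
  induction t, ht using Nat.le_induction with
  | base => rfl
  | succ t ht ih =>
    show ∑ s ∈ range (2 ^ W + 1), prq (2 ^ W + 1) (trueG E lam W K) 0 t u s *
      trueG E lam W K (0 + t) s v = _
    rw [zero_add]
    have h1 : ∀ s ∈ range (2 ^ W + 1), prq (2 ^ W + 1) (trueG E lam W K) 0 t u s *
        trueG E lam W K t s v =
        if s = v then prq (2 ^ W + 1) (trueG E lam W K) 0 t u v else 0 := by
      intro s _
      unfold trueG numG
      rw [if_neg (by omega)]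
      split_ifs with h
      · rw [h, Nat.cast_pow, Nat.cast_ofNat, div_self (by positivity), mul_one]
      · rw [Nat.cast_zero, zero_div, mul_zero]
    rw [sum_congr rfl h1, sum_ite_eq', if_pos (mem_range.2 (by omega)), ih]

/-- The product of the matrices with a sink. -/
theorem prq_trueG (h : SubG E lam W K) {m : ℕ} (hm : 2 ^ lam ≤ m) (u : ℕ) {v : ℕ}
    (hv : v < 2 ^ W) :
    prq (2 ^ W + 1) (trueG E lam W K) 0 m u v = prodG E W K (2 ^ lam) u v := by
  rw [prq_trueG_ge E lam W K hm hv, prq_trueG_le h le_rfl hv]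

/-- The matrices of the input. -/
theorem prodM_eq_prodG (x : List Bool) (W K g t u v : ℕ) :
    prodM x W K g t u v = prodG (fun t u v => entry x W K g t u v) W K t u v := by
  induction t generalizing v with
  | zero => rfl
  | succ t ih =>
    show ∑ s ∈ range (2 ^ W), prodM x W K g t u s * ((entry x W K g t s v : ℚ) / 2 ^ K) = _
    exact sum_congr rfl fun s _ => by rw [ih]

end Vale.Agent.P313.MW
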