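import Vale.Agent.P313.H638.G1
import Vale.Agent.P313.H72.MWd
import Vale.Agent.P313.H146.ModN

/-!
Medium width for arbitrary families of matrices, part 2: soundness and completeness.
-/

namespace Vale.Agent.P313.MW

open Finset

/-- The bottom of the recursion, with the budget `M`. -/
def bsG (Q J X : ℕ) (E : ℕ → ℕ → ℕ → ℕ) (lam W K M A a : ℕ) : ℕ :=
  numG E lam W K A (fd X a 4) (fd X a 5) * min (Q ^ J) (M + 1) / 2 ^ K / Q ^ fd X a 6 % Q

theorem bsG_eq {Q J X : ℕ} {E : ℕ → ℕ → ℕ → ℕ} {lam W K M A u v e : ℕ} (hX : 0 < X)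
    (hM : Q ^ J ≤ M) (hu : u < X) (hv : v < X) (he : e < X) :
    bsG Q J X E lam W K M A (pk X [0, 0, 0, 0, u, v, e, 0]) =
      baseG Q J E lam W K A u v / Q ^ e % Q := by
  unfold bsG baseG
  rw [fd_four hX, fd_five hX, fd_six hX, Nat.mod_eq_of_lt hu, Nat.mod_eq_of_lt hv,
    Nat.mod_eq_of_lt he, min_eq_left (by omega)]

theorem err_auxG (W r g : ℕ) (h : g < (r + 1) ^ 2) :
    1 + (2 + (r + 1)) * (r + 1) + (W + 1) + (g + W + 4) < 40 * (W + (r + 1) + 10) * (r + 2) := by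
  nlinarith [Nat.zero_le (W * r), Nat.zero_le (r * r)]

/-- The final error is smaller than needed. -/
theorem final_errG (lam W g : ℕ) : 2 * (4 * ((thePrm lam W g).n : ℚ)) ^ (thePrm lam W g).s *
    (thePrm lam W g).N / ((thePrm lam W g).Q : ℚ) ^ (thePrm lam W g).J <
      1 / 2 ^ (g + W + 4) := by
  obtain ⟨h1, h2, h3⟩ := H146.Q_spec lam W g
  have hQ0 : (0 : ℚ) < (thePrm lam W g).Q := by exact_mod_cast h1.pos
  rw [div_lt_div_iff₀ (pow_pos hQ0 _) (by positivity), one_mul]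
  have h4 : (2 * (4 * (thePrm lam W g).n) ^ (thePrm lam W g).s *
      (thePrm lam W g).N) * 2 ^ (g + W + 4) < (thePrm lam W g).Q ^ (thePrm lam W g).J := by
    have h5 : (2 * (4 * (thePrm lam W g).n) ^ (thePrm lam W g).s *
      (thePrm lam W g).N) * 2 ^ (g + W + 4) ≤
        2 ^ (1 + (2 + (Nat.sqrt (lam + g) + 1)) * (Nat.sqrt (lam + g) + 1) + (W + 1) +
          (g + W + 4)) := by
      rw [pow_add _ _ (g + W + 4), pow_add _ _ (W + 1), pow_add _ 1, pow_one, pow_mul,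
        pow_add _ 2]
      refine Nat.mul_le_mul_right _ (Nat.mul_le_mul ?_ (H146.N_le lam W g))
      rw [H146.thePrm_n, H146.thePrm_s]
      norm_num
    refine lt_of_le_of_lt h5 (lt_of_lt_of_le (b := (2 ^ (40 * H146.hh lam W g)) ^
      (thePrm lam W g).J) ?_ (Nat.pow_le_pow_left h2 _))
    rw [← pow_mul, H146.thePrm_J]
    refine Nat.pow_lt_pow_right (by norm_num) ?_
    have h6 : lam + g < (Nat.sqrt (lam + g) + 1) ^ 2 := H146.lt_sq lam W g
    have h7 : H146.hh lam W g = W + (Nat.sqrt (lam + g) + 1) + 10 := rfl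
    rw [h7]
    exact err_auxG _ _ _ (by omega)
  exact_mod_cast h4

section spec

variable {π : Prm} {X : ℕ} {E : ℕ → ℕ → ℕ → ℕ} {lam W K g M : ℕ}

theorem baseVG (hV : ModV) (hB : π.Big X) (hM : π.Q ^ π.J ≤ M) (z k A : ℕ) :
    (∀ u < π.N, ∀ v < π.N, ∀ e < X,
      π.V X (alz π.Q z) (bez π.Q z) (bsG π.Q π.J X E lam W K M) (k * π.LP) A
        (pk X [0, 0, 0, 0, u, v, e, 0]) =
        π.stg (alz π.Q z) (bez π.Q z) (baseG π.Q π.J E lam W K) k A u v / π.Q ^ e % π.Q) ∧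
    (π.V X (alz π.Q z) (bez π.Q z) (bsG π.Q π.J X E lam W K M) (k * π.LP + 9) A
      (pk X [3, 0, 0, 0, 0, 0, 0, 0]) ≠ 0 ↔
      π.found (alz π.Q z) (bez π.Q z) (fun p u v => π.stg (alz π.Q z) (bez π.Q z)
        (baseG π.Q π.J E lam W K) k (A * π.n + p) u v)) := by
  have hQX := hB.QX
  have hWX := hB.WX
  have hNW := N_le_W4 (π := π)
  exact hV π X (alz π.Q z) (bez π.Q z) (bsG π.Q π.J X E lam W K M) (baseG π.Q π.J E lam W K)
    hB (fun A u hu v hv e he => bsG_eq (by omega) hM (by omega) (by omega) he)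
    (fun A u v => baseG_lt hB.Q2 π.J E lam W K A u v) k A

theorem resG_eq (hV : ModV) (hB : π.Big X) (hs : 1 ≤ π.s) (hM : π.Q ^ π.J ≤ M)
    (z : ℕ) {u v : ℕ} (hu : u < π.N) (hv : v < π.N) :
    resz π X (bsG π.Q π.J X E lam W K M) z u v =
      π.stg (alz π.Q z) (bez π.Q z) (baseG π.Q π.J E lam W K) π.s 0 u v := by
  unfold resz
  have hQ2 := hB.Q2
  have hFX := hB.FX
  have hJF := J_lt_F (π := π)
  have h1 : ∀ e ∈ range (π.J + 1),
      π.V X (alz π.Q z) (bez π.Q z) (bsG π.Q π.J X E lam W K M) (π.s * π.LP) 0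
        (pk X [0, 0, 0, 0, u, v, e, 0]) * π.Q ^ e =
      π.stg (alz π.Q z) (bez π.Q z) (baseG π.Q π.J E lam W K) π.s 0 u v / π.Q ^ e % π.Q *
        π.Q ^ e := by
    intro e he
    rw [mem_range] at he
    rw [(baseVG hV hB hM z π.s 0).1 u hu v hv e (by omega)]
  rw [sum_congr rfl h1, sum_digits (by omega)]
  exact Nat.mod_eq_of_lt (Prm.stg_lt hs (by omega) _ _ _ _)

/-- Soundness. -/
theorem resG_near (hV : ModV) (hN : ModN) (hK2 : ModK2)
    (hx : SubG E lam W K) (hM : (thePrm lam W g).Q ^ (thePrm lam W g).J ≤ M) {z u v : ℕ}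
    (hu : u < 2 ^ W) (hv : v < 2 ^ W)
    (hz : okz (thePrm lam W g) (theX lam W g)
      (bsG (thePrm lam W g).Q (thePrm lam W g).J (theX lam W g) E lam W K M) z) :
    |(resz (thePrm lam W g) (theX lam W g)
      (bsG (thePrm lam W g).Q (thePrm lam W g).J (theX lam W g) E lam W K M) z u v : ℚ) /
        ((thePrm lam W g).Q : ℚ) ^ (thePrm lam W g).J - prodG E W K (2 ^ lam) u v| <
      1 / 2 ^ (g + W + 4) := by
  obtain ⟨hnum, hbig, hls, -, -, -, -, -⟩ := hN.1 lam W g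
  have herr := final_errG lam W g
  set π := thePrm lam W g with hπ
  have hNW : π.N = 2 ^ W + 1 := rfl
  have hQ2 := hbig.Q2
  rw [resG_eq hV hbig hnum.s1 hM z (by omega) (by omega)]
  have hst : Stoch π.N (π.n ^ π.s) (trueG E lam W K) := stoch_trueG hx _
  have h1 := hK2 π _ (alz π.Q z) (bez π.Q z) (baseG π.Q π.J E lam W K) (trueG E lam W K) π.s
    hnum le_rfl hst (fun A _ u _ v _ => baseG_near hQ2 π.J E lam W K A u v) π.s le_rfl
    (fun k hk A hA => (baseVG hV hbig hM z k A).2.1 (hz k hk A hA)) 0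
    (by rw [Nat.sub_self, pow_zero]; exact Nat.one_pos) u (by omega) v (by omega)
  have h2 : 2 ^ lam ≤ π.n ^ π.s := by
    unfold Prm.n
    rw [← pow_mul]
    apply Nat.pow_le_pow_right (by norm_num)
    have : π.s * π.s = π.s ^ 2 := by ring
    omega
  have h3 := prq_trueG hx h2 u hv
  rw [zero_mul, hNW, h3] at h1
  refine lt_of_le_of_lt h1 ?_
  rw [← hNW]
  exact herr

/-- Completeness. -/
theorem exists_okG (hV : ModV) (hN : ModN) (hK3 : ModK3)
    (hx : SubG E lam W K) (hM : (thePrm lam W g).Q ^ (4 * (thePrm lam W g).s + 4) ≤ M) :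
    ∃ z < M + 1, okz (thePrm lam W g) (theX lam W g)
      (bsG (thePrm lam W g).Q (thePrm lam W g).J (theX lam W g) E lam W K M) z := by
  obtain ⟨hnum, hbig, hls, -, -, -, -, -⟩ := hN.1 lam W g
  set π := thePrm lam W g with hπ
  have hQ2 := hbig.Q2
  have hst : Stoch π.N (π.n ^ π.s) (trueG E lam W K) := stoch_trueG hx _
  obtain ⟨al, be, hab, hf⟩ := hK3 π _ (baseG π.Q π.J E lam W K) (trueG E lam W K) hnum hst
    (fun A _ u _ v _ => baseG_near hQ2 π.J E lam W K A u v)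
  obtain ⟨z, hz, hz2⟩ := exists_pool_number (s := π.s) hab
  have hJ := hnum.J
  have hMJ : π.Q ^ π.J ≤ M :=
    (Nat.pow_le_pow_right (by omega) (by omega)).trans hM
  have hzM : z < M + 1 := by
    have : π.Q ^ (4 * π.s) ≤ π.Q ^ (4 * π.s + 4) := Nat.pow_le_pow_right (by omega) (by omega)
    omega
  refine ⟨z, hzM, fun k hk A hA => (baseVG hV hbig hMJ z k A).2.2 ?_⟩
  have h1 := hf k hk A hA
  rw [← Prm.found_congr hz2] at h1
  have h2 : (fun p u v => π.stg al be (baseG π.Q π.J E lam W K) k (A * π.n + p) u v) =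
      (fun p u v => π.stg (alz π.Q z) (bez π.Q z) (baseG π.Q π.J E lam W K) k
        (A * π.n + p) u v) := by
    funext p u v
    exact (Prm.stg_congr hz2 _ _ _ _ _).symm
  rw [h2] at h1
  exact h1

end spec

/-! ### Rounded values -/

/-- The first good pool. -/
noncomputable def fstG (E : ℕ → ℕ → ℕ → ℕ) (lam W K g M : ℕ) : ℕ :=
  leastBelow (fun z => okz (thePrm lam W g) (theX lam W g)
      (bsG (thePrm lam W g).Q (thePrm lam W g).J (theX lam W g) E lam W K M) z) (M + 1)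

/-- The approximate entry with denominator `2 ^ (r + 2)`. -/
noncomputable def valG (E : ℕ → ℕ → ℕ → ℕ) (lam W K g r M u v : ℕ) : ℕ :=
  2 ^ (r + 2) * resz (thePrm lam W g) (theX lam W g)
    (bsG (thePrm lam W g).Q (thePrm lam W g).J (theX lam W g) E lam W K M)
    (fstG E lam W K g M) u v / (thePrm lam W g).Q ^ (thePrm lam W g).J

theorem floor_near {a b c : ℕ} (hb : 0 < b) (hc : 0 < c) :
    |((c * a / b : ℕ) : ℚ) / c - (a : ℚ) / b| ≤ 1 / c := by
  have hb' : (0 : ℚ) < b := Nat.cast_pos.2 hb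
  have hc' : (0 : ℚ) < c := Nat.cast_pos.2 hc
  have hlo := Nat.div_mul_le_self (c * a) b
  have hhi := Nat.lt_div_mul_add (a := c * a) (b := b) hb
  have hlo' : ((c * a / b : ℕ) : ℚ) * b ≤ (c : ℚ) * a := by exact_mod_cast hlo
  have hhi' : (c : ℚ) * a < ((c * a / b : ℕ) : ℚ) * b + b := by exact_mod_cast hhi
  have e : ((c * a / b : ℕ) : ℚ) / c - (a : ℚ) / b =
      (((c * a / b : ℕ) : ℚ) * b - (c : ℚ) * a) / (c * b) := by
    rw [div_sub_div _ _ hc'.ne' hb'.ne']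
  rw [e, abs_div, abs_of_pos (mul_pos hc' hb'), div_le_div_iff₀ (mul_pos hc' hb') hc', one_mul]
  have h3 : |((c * a / b : ℕ) : ℚ) * b - (c : ℚ) * a| ≤ b := by
    rw [abs_le]
    constructor <;> linarith
  calc _ ≤ (b : ℚ) * c := mul_le_mul_of_nonneg_right h3 hc'.le
    _ = _ := mul_comm _ _

/-- The approximate entries are good. -/
theorem valG_near (hV : ModV) (hN : ModN) (hK2 : ModK2) (hK3 : ModK3) {E : ℕ → ℕ → ℕ → ℕ}
    {lam W K g r M : ℕ} (hx : SubG E lam W K) (hr : r ≤ g + W)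
    (hM : (thePrm lam W g).Q ^ (4 * (thePrm lam W g).s + 4) ≤ M) {u v : ℕ}
    (hu : u < 2 ^ W) (hv : v < 2 ^ W) :
    |(valG E lam W K g r M u v : ℚ) / 2 ^ (r + 2) - prodG E W K (2 ^ lam) u v| <
      1 / 2 ^ (r + 1) := by
  obtain ⟨hnum, hbig, -, -, -, -, -, -⟩ := hN.1 lam W g
  have hQ2 := hbig.Q2
  have hJ := hnum.J
  have hMJ : (thePrm lam W g).Q ^ (thePrm lam W g).J ≤ M :=
    (Nat.pow_le_pow_right (by omega) (by omega)).trans hM
  obtain ⟨z, hz, hok⟩ := exists_okG hV hN hK3 hx hM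
  have hfst : okz (thePrm lam W g) (theX lam W g)
      (bsG (thePrm lam W g).Q (thePrm lam W g).J (theX lam W g) E lam W K M)
      (fstG E lam W K g M) := by
    obtain ⟨h3, h4, h5⟩ := leastBelow_spec (fun z => okz (thePrm lam W g) (theX lam W g)
      (bsG (thePrm lam W g).Q (thePrm lam W g).J (theX lam W g) E lam W K M) z) (M + 1)
    refine h5 (lt_of_le_of_lt ?_ hz)
    by_contra h6
    exact h4 z (not_le.1 h6) hok
  have h1 := resG_near hV hN hK2 hx hMJ hu hv hfst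
  have hQJ : 0 < (thePrm lam W g).Q ^ (thePrm lam W g).J := Nat.pow_pos (by omega)
  have h2 := floor_near (a := resz (thePrm lam W g) (theX lam W g)
    (bsG (thePrm lam W g).Q (thePrm lam W g).J (theX lam W g) E lam W K M)
    (fstG E lam W K g M) u v) hQJ (Nat.two_pow_pos (r + 2))
  rw [Nat.cast_pow, Nat.cast_pow, Nat.cast_ofNat] at h2
  have h3 : (1 : ℚ) / 2 ^ (g + W + 4) ≤ 1 / 2 ^ (r + 2) :=
    one_div_le_one_div_of_le (by positivity) (pow_le_pow_right₀ (by norm_num) (by omega))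
  have h4 : (1 : ℚ) / 2 ^ (r + 1) = 1 / 2 ^ (r + 2) + 1 / 2 ^ (r + 2) := by
    rw [pow_succ _ (r + 1)]; field_simp; norm_num
  have h5 := abs_add_le ((valG E lam W K g r M u v : ℚ) / 2 ^ (r + 2) -
    (resz (thePrm lam W g) (theX lam W g)
    (bsG (thePrm lam W g).Q (thePrm lam W g).J (theX lam W g) E lam W K M)
    (fstG E lam W K g M) u v : ℚ) / ((thePrm lam W g).Q : ℚ) ^ (thePrm lam W g).J)
    ((resz (thePrm lam W g) (theX lam W g)
    (bsG (thePrm lam W g).Q (thePrm lam W g).J (theX lam W g) E lam W K M)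
    (fstG E lam W K g M) u v : ℚ) / ((thePrm lam W g).Q : ℚ) ^ (thePrm lam W g).J -
      prodG E W K (2 ^ lam) u v)
  rw [sub_add_sub_cancel] at h5
  refine lt_of_le_of_lt h5 ?_
  rw [h4]
  exact add_lt_add_of_le_of_lt h2 (lt_of_lt_of_le h1 h3)

end Vale.Agent.P313.MW
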