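import Vale.Agent.P313.H638.G2

/-!
Medium width for arbitrary families of matrices, part 3: the machine.
-/

namespace Vale.Agent.P313.MW

open Finset

/-- The value computed by the stack machine. -/
noncomputable def runG (E : ℕ → ℕ → ℕ → ℕ) (lam W K g z M lev A a : ℕ) : ℕ :=
  ((thePrm lam W g).rcn (theX lam W g) (alz (thePrm lam W g).Q z) (bez (thePrm lam W g).Q z)
    (bsG (thePrm lam W g).Q (thePrm lam W g).J (theX lam W g) E lam W K M)).run
    ((thePrm lam W g).n ^ (thePrm lam W g).s) (theX lam W g ^ 8) (theX lam W g ^ 4) lev M A a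

/-- The pool is good, with the stack machine. -/
def okR (E : ℕ → ℕ → ℕ → ℕ) (lam W K g z M : ℕ) : Prop :=
  ∀ k < (thePrm lam W g).s,
    ∀ A < (thePrm lam W g).n ^ (thePrm lam W g).s / (thePrm lam W g).n ^ (k + 1),
      ¬ runG E lam W K g z M (k * (thePrm lam W g).LP + 9) A
        (pk (theX lam W g) [3, 0, 0, 0, 0, 0, 0, 0]) = 0

/-- The first good pool, with the stack machine. -/
noncomputable def fstR (E : ℕ → ℕ → ℕ → ℕ) (lam W K g M : ℕ) : ℕ :=
  leastBelow (fun z => okR E lam W K g z M) (M + 1)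

/-- The approximate entry with denominator `2 ^ (r + 2)`, with the stack machine. -/
noncomputable def valR (E : ℕ → ℕ → ℕ → ℕ) (lam W K g r M u v : ℕ) : ℕ :=
  2 ^ (r + 2) * (∑ e ∈ range ((thePrm lam W g).J + 1),
    runG E lam W K g (fstR E lam W K g M) M ((thePrm lam W g).s * (thePrm lam W g).LP) 0
      (pk (theX lam W g) [0, 0, 0, 0, u, v, e, 0]) * min ((thePrm lam W g).Q ^ e) (M + 1)) /
    min ((thePrm lam W g).Q ^ (thePrm lam W g).J) (M + 1)

theorem valR_eq (hN : ModN) {E : ℕ → ℕ → ℕ → ℕ} {lam W K g r M : ℕ} (hM : theM lam W g ≤ M)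
    (u v : ℕ) : valR E lam W K g r M u v = valG E lam W K g r M u v := by
  obtain ⟨hnum, hbig, -, h1, h2, h3, h4, -⟩ := hN.1 lam W g
  have hQ2 := hbig.Q2
  have hQX := hbig.QX
  have hJ := hnum.J
  have hn : 0 < (thePrm lam W g).n := Nat.two_pow_pos _
  have hMJ : (thePrm lam W g).Q ^ (thePrm lam W g).J ≤ M :=
    ((Nat.pow_le_pow_right (by omega) (by omega)).trans h3).trans hM
  have hrun : ∀ (z lev A a : ℕ), lev ≤ (thePrm lam W g).s * (thePrm lam W g).LP →
      A < (thePrm lam W g).bd lev → a < theX lam W g ^ 8 →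
      runG E lam W K g z M lev A a = (thePrm lam W g).V (theX lam W g)
        (alz (thePrm lam W g).Q z) (bez (thePrm lam W g).Q z)
        (bsG (thePrm lam W g).Q (thePrm lam W g).J (theX lam W g) E lam W K M) lev A a :=
    fun z lev A a hl hA ha => Prm.run_eq (by omega) h4 (h1.trans hM) (h2.trans hM) hl hA ha
  have hpk : ∀ a b c d e f g' h : ℕ, pk (theX lam W g) [a, b, c, d, e, f, g', h] <
      theX lam W g ^ 8 := fun _ _ _ _ _ _ _ _ => pk_lt (by omega) _
  have hall : ∀ z, okR E lam W K g z M ↔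
      okz (thePrm lam W g) (theX lam W g)
        (bsG (thePrm lam W g).Q (thePrm lam W g).J (theX lam W g) E lam W K M) z := by
    intro z
    unfold okz okR
    refine forall_congr' (fun k => imp_congr_right (fun hk => ?_))
    have hdiv : (thePrm lam W g).n ^ (thePrm lam W g).s / (thePrm lam W g).n ^ (k + 1) =
        (thePrm lam W g).n ^ ((thePrm lam W g).s - k - 1) := by
      rw [Nat.pow_div (by omega) hn, Nat.sub_sub]
    rw [hdiv]
    refine forall_congr' (fun A => imp_congr_right (fun hA => ?_))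
    have hlev : k * (thePrm lam W g).LP + 9 ≤ (thePrm lam W g).s * (thePrm lam W g).LP := by
      have h5 : (k + 1) * (thePrm lam W g).LP ≤ (thePrm lam W g).s * (thePrm lam W g).LP :=
        Nat.mul_le_mul_right _ hk
      have h6 : 12 ≤ (thePrm lam W g).LP := by unfold Prm.LP; omega
      rw [add_mul, one_mul] at h5
      omega
    rw [hrun z _ A _ hlev (by rw [Prm.bd_nine]; exact hA) (hpk _ _ _ _ _ _ _ _)]
  have hfst : fstR E lam W K g M = fstG E lam W K g M := by
    unfold fstR fstG
    congr 1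
    funext z
    exact propext (hall z)
  unfold valR valG resz
  rw [hfst, min_eq_left (by omega : (thePrm lam W g).Q ^ (thePrm lam W g).J ≤ M + 1)]
  congr 2
  refine sum_congr rfl (fun e he => ?_)
  rw [mem_range] at he
  have h5 : (thePrm lam W g).Q ^ e ≤ (thePrm lam W g).Q ^ (thePrm lam W g).J :=
    Nat.pow_le_pow_right (by omega) (by omega)
  rw [hrun _ _ 0 _ le_rfl (by rw [Prm.bd_top]; exact Nat.one_pos) (hpk _ _ _ _ _ _ _ _),
    min_eq_left (by omega)]

section par

variable {lam W K g : ℕ → ℕ} {c k : ℕ} {E : List Bool → ℕ → ℕ → ℕ → ℕ}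

theorem lf_numG (P : Par lam W K g c) (hE : LF (fun x a => E x (a 0) (a 1) (a 2) : Fn 3))
    {t u v : Fn k} (ht : LF t) (hu : LF u) (hv : LF v) :
    LF (fun x a => numG (E x) (lam x.length) (W x.length) (K x.length) (t x a) (u x a)
      (v x a)) := by
  have hW := lf_x (lf_twoPow P.hW P.Wc) k
  have hL := lf_x (lf_twoPow P.hlam P.lamc) k
  have hK := lf_x (lf_twoPow P.hK P.Kc) k
  have hs : LF (fun x a => ∑ w ∈ range (2 ^ W x.length), E x (t x a) (u x a) w) := by
    refine (LF.sum (k := k) (f := fun x b => E x (t x (Fin.tail b)) (u x (Fin.tail b)) (b 0))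
      (lf_comp3 (F := E) hE ht.weak hu.weak (LF.proj 0)) hW).congr (fun x a => ?_)
    refine sum_congr rfl (fun j _ => ?_)
    simp only [Fin.tail_cons, Fin.cons_zero]
  unfold numG
  exact LF.ite ((LFP.lt ht hL).and (LFP.lt hu hW))
    (LF.ite (LFP.lt hv hW) ((lf_comp3 (F := E) hE ht hu hv).min hK)
      (LF.ite (LFP.eq hv hW) (hK.sub hs) (LF.const 0)))
    (LF.ite (LFP.eq hu hv) hK (LF.const 0))

theorem lf_bsG (P : Par lam W K g c) (hE : LF (fun x a => E x (a 0) (a 1) (a 2) : Fn 3))
    (hp : PrmLF (fun x => thePrm (lam x.length) (W x.length) (g x.length)))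
    (hX : ∀ m, LF (fun x _ => theX (lam x.length) (W x.length) (g x.length) : Fn m)) :
    LF (fun x a => bsG (thePrm (lam x.length) (W x.length) (g x.length)).Q
      (thePrm (lam x.length) (W x.length) (g x.length)).J
      (theX (lam x.length) (W x.length) (g x.length)) (E x) (lam x.length) (W x.length)
      (K x.length) (a 0) (a 1) (a 2) : Fn 3) := by
  unfold bsG
  have h1 := lf_numG (k := 3) P hE (LF.proj 1) (lf_fd (hX 3) (LF.proj 2) 4)
    (lf_fd (hX 3) (LF.proj 2) 5)
  have h2 := LF.powMin (k := 3) (hp.Q 3) (hp.J 3) (LF.proj 0)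
  exact ((LF.divPow (hp.Q 3) ((h1.mul h2).div (lf_x (lf_twoPow P.hK P.Kc) 3))
    (lf_fd (hX 3) (LF.proj 2) 6))).mod (hp.Q 3)

theorem lf_runG (hL : ModL) (hN : ModN) (P : Par lam W K g c)
    (hE : LF (fun x a => E x (a 0) (a 1) (a 2) : Fn 3))
    (hp : PrmLF (fun x => thePrm (lam x.length) (W x.length) (g x.length)))
    (hX : ∀ m, LF (fun x _ => theX (lam x.length) (W x.length) (g x.length) : Fn m))
    {z M lev A a : Fn k} (hz : LF z) (hM : LF M) (hlev : LF lev) (hA : LF A) (ha : LF a) :
    LF (fun x b => runG (E x) (lam x.length) (W x.length) (K x.length) (g x.length) (z x b)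
      (M x b) (lev x b) (A x b) (a x b)) := by
  have h1 := hL (fun x => thePrm (lam x.length) (W x.length) (g x.length))
    (fun x => theX (lam x.length) (W x.length) (g x.length))
    (fun x M A a => bsG (thePrm (lam x.length) (W x.length) (g x.length)).Q
      (thePrm (lam x.length) (W x.length) (g x.length)).J
      (theX (lam x.length) (W x.length) (g x.length)) (E x) (lam x.length) (W x.length)
      (K x.length) M A a) hp hX (fun x => by
        have := (hN.1 (lam x.length) (W x.length) (g x.length)).2.1.Q2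
        omega) (lf_bsG P hE hp hX)
  exact lf_comp5 (F := fun x z M lev A a => runG (E x) (lam x.length) (W x.length) (K x.length)
    (g x.length) z M lev A a) h1 hz hM hlev hA ha

theorem lf_fstR (hL : ModL) (hN : ModN) (P : Par lam W K g c)
    (hE : LF (fun x a => E x (a 0) (a 1) (a 2) : Fn 3))
    (hp : PrmLF (fun x => thePrm (lam x.length) (W x.length) (g x.length)))
    (hX : ∀ m, LF (fun x _ => theX (lam x.length) (W x.length) (g x.length) : Fn m)) :
    LF (fun x a => fstR (E x) (lam x.length) (W x.length) (K x.length) (g x.length) (a 0) :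
      Fn 1) := by
  -- the innermost predicate: `A`, `k`, `z`, `M`
  have p4 : LFP (fun x e => ¬ runG (E x) (lam x.length) (W x.length) (K x.length) (g x.length)
      (e 2) (e 3) (e 1 * (thePrm (lam x.length) (W x.length) (g x.length)).LP + 9) (e 0)
      (pk (theX (lam x.length) (W x.length) (g x.length)) [3, 0, 0, 0, 0, 0, 0, 0]) = 0 :
      List Bool → (Fin 4 → ℕ) → Prop) := by
    refine (LFP.eq_zero (lf_runG hL hN P hE hp hX (LF.proj 2) (LF.proj 3)
      (((LF.proj 1).mul (lf_LP hp 4)).add (LF.const 9)) (LF.proj 0) ?_)).not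
    exact lf_pk (hX 4) (LF.const 3) (LF.const 0) (LF.const 0) (LF.const 0) (LF.const 0)
      (LF.const 0) (LF.const 0) (LF.const 0)
  have p3 := LFP.all p4 (LF.divPow (hp.n 3) (hp.Ma 3) (LF.proj 0).succ)
  have p2 : LFP (fun x a => okR (E x) (lam x.length) (W x.length) (K x.length) (g x.length)
      (a 0) (a 1) : List Bool → (Fin 2 → ℕ) → Prop) := LFP.all p3 (hp.s 2)
  exact LF.least p2 (LF.proj (k := 1) 0).succ

theorem lf_valR (hL : ModL) (hN : ModN) (P : Par lam W K g c)
    (hE : LF (fun x a => E x (a 0) (a 1) (a 2) : Fn 3))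
    (hp : PrmLF (fun x => thePrm (lam x.length) (W x.length) (g x.length)))
    (hX : ∀ m, LF (fun x _ => theX (lam x.length) (W x.length) (g x.length) : Fn m))
    {r : ℕ → ℕ} (hr : LF (fun x _ => r x.length : Fn 0)) {c' : ℕ}
    (rc : ∀ n, r n ≤ c' * Nat.log 2 (n + 2)) {M u v : Fn k} (hM : LF M) (hu : LF u)
    (hv : LF v) :
    LF (fun x a => valR (E x) (lam x.length) (W x.length) (K x.length) (g x.length) (r x.length)
      (M x a) (u x a) (v x a)) := by
  have hf : LF (fun x a => fstR (E x) (lam x.length) (W x.length) (K x.length) (g x.length)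
      (M x a)) := lf_comp1 (F := fun x M => fstR (E x) (lam x.length) (W x.length) (K x.length)
        (g x.length) M) (lf_fstR hL hN P hE hp hX) hM
  have s1 : LF (fun x d => runG (E x) (lam x.length) (W x.length) (K x.length) (g x.length)
      (fstR (E x) (lam x.length) (W x.length) (K x.length) (g x.length) (M x (Fin.tail d)))
      (M x (Fin.tail d)) ((thePrm (lam x.length) (W x.length) (g x.length)).s *
        (thePrm (lam x.length) (W x.length) (g x.length)).LP) 0
      (pk (theX (lam x.length) (W x.length) (g x.length)) [0, 0, 0, 0, u x (Fin.tail d),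
        v x (Fin.tail d), d 0, 0]) *
      min ((thePrm (lam x.length) (W x.length) (g x.length)).Q ^ d 0) (M x (Fin.tail d) + 1) :
      Fn (k + 1)) := by
    refine (lf_runG hL hN P hE hp hX hf.weak hM.weak ((hp.s (k + 1)).mul (lf_LP hp (k + 1)))
      (LF.const 0) ?_).mul (LF.powMin (hp.Q (k + 1)) (LF.proj 0) hM.weak)
    exact lf_pk (hX (k + 1)) (LF.const 0) (LF.const 0) (LF.const 0) (LF.const 0) hu.weak hv.weak
      (LF.proj 0) (LF.const 0)
  have s2 := LF.sum s1 (hp.J k).succ
  have h2r : LF (fun x _ => 2 ^ (r x.length + 2) : Fn k) :=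
    ((lf_x (lf_twoPow hr rc) k).mul (LF.const 4)).congr (fun x _ => by rw [pow_add]; norm_num)
  refine ((h2r.mul s2).div (LF.powMin (hp.Q k) (hp.J k) hM)).congr (fun x a => ?_)
  unfold valR
  simp only [Fin.tail_cons, Fin.cons_zero]

end par

/-- MEDIUM WIDTH, general form: predicates of an approximate entry. -/
theorem gen_pred (hL : ModL) (hN : ModN)
    {lam W K g : ℕ → ℕ} {c : ℕ} (P : Par lam W K g c) {r : ℕ → ℕ}
    (hr : LF (fun x _ => r x.length : Fn 0)) {c' : ℕ} (rc : ∀ n, r n ≤ c' * Nat.log 2 (n + 2))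
    {E : List Bool → ℕ → ℕ → ℕ → ℕ} (hE : LF (fun x a => E x (a 0) (a 1) (a 2) : Fn 3))
    {u v : List Bool → ℕ} (hu : LF (fun x _ => u x : Fn 0)) (hv : LF (fun x _ => v x : Fn 0))
    {Φ : List Bool → ℕ → Prop}
    (hΦ : LFP (fun x a => Φ x (a 0) : List Bool → (Fin 1 → ℕ) → Prop)) :
    ∃ (D : RTM) (e : ℝ),
      D.Decides {x | Φ x (valG (E x) (lam x.length) (W x.length) (K x.length) (g x.length)
        (r x.length) (theM (lam x.length) (W x.length) (g x.length)) (u x) (v x))}
        (fun n => (2 : ℝ) ^ (e * theS lam W g n)) (fun n => e * theS lam W g n) := by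
  obtain ⟨c1, hc1⟩ := hN.2.1 lam W g c P.lamc P.Wc P.gc
  obtain ⟨hp, hX⟩ := hN.2.2 lam W g P.hlam P.hW P.hg c P.lamc P.Wc P.gc
  let M : List Bool → ℕ := fun x => theM (lam x.length) (W x.length) (g x.length)
  let A : Set (List Bool) := {x | Φ x (valG (E x) (lam x.length) (W x.length) (K x.length)
    (g x.length) (r x.length) (M x) (u x) (v x))}
  have hF : LFP (fun x a => Φ x (valR (E x) (lam x.length) (W x.length) (K x.length)
      (g x.length) (r x.length) (a 0) (u x) (v x)) : List Bool → (Fin 1 → ℕ) → Prop) := by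
    have h1 := lf_valR (k := 1) hL hN P hE hp hX hr rc (LF.proj 0) (lf_x hu 1) (lf_x hv 1)
    exact lf_comp1 (F := fun x w => ind (Φ x w)) hΦ h1
  have hG : LF (fun x a => ind (min (theX (lam x.length) (W x.length) (g x.length) ^
      (30 * ((thePrm (lam x.length) (W x.length) (g x.length)).s *
        (thePrm (lam x.length) (W x.length) (g x.length)).LP + 1))) (a 0 + 1) ≤ a 0) : Fn 1) :=
    LFP.le (LF.powMin (hX 1) ((LF.const 30).mul ((hp.s 1).mul (lf_LP hp 1)).succ) (LF.proj 0))
      (LF.proj 0)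
  obtain ⟨D, e, hD⟩ := CT.pad_decides_real (S := theS lam W g) (A := A) hF hG
    (fun n => zero_le_one.trans (one_le_theS lam W g n)) (c := c1) (fun x => by
      have hM : ∀ m : ℕ, min (theX (lam x.length) (W x.length) (g x.length) ^
          (30 * ((thePrm (lam x.length) (W x.length) (g x.length)).s *
          (thePrm (lam x.length) (W x.length) (g x.length)).LP + 1))) (m + 1) ≤ m ↔
          M x ≤ m := by
        intro m
        show min (M x) (m + 1) ≤ m ↔ M x ≤ m
        omega
      refine ⟨M x, fun m hm => ?_, ?_, hc1 x.length, ?_⟩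
      · refine ind_false (fun h => ?_)
        have h2 := (hM m).1 h
        omega
      · rw [CT.ind_ne_zero, hM]
      · rw [CT.ind_ne_zero]
        show Φ x (valR (E x) (lam x.length) (W x.length) (K x.length) (g x.length) (r x.length)
          (M x) (u x) (v x)) ↔ _
        rw [valR_eq hN le_rfl]
        exact Iff.rfl)
  refine ⟨D, 2 * e, decides_mono' hD (fun n => ?_) (fun n => ?_)⟩
  · apply Real.rpow_le_rpow_of_exponent_le (by norm_num)
    have h1 := one_le_theS lam W g n
    have h2 : (0 : ℝ) ≤ e := Nat.cast_nonneg _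
    nlinarith
  · have h1 := one_le_theS lam W g n
    have h2 : (0 : ℝ) ≤ e := Nat.cast_nonneg _
    nlinarith

end Vale.Agent.P313.MW
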