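import Vale.Agent.P313.H427L.Coins

/-!
Machines which carry few cells of memory from one random bit to the next: what such a machine
knows when it asks for a random bit, and the codes of these configurations.
-/

namespace Vale.Agent.P313

open Finset

namespace RTM

variable (M : RTM)

/-- On input `x` and random bits `ω` the machine asks for a random bit at step `t`. -/
def asks (x : List Bool) (ω : ℕ → Bool) (t : ℕ) : Prop :=
  M.verdict (M.run x ω t).state = none ∧ M.coin (M.run x ω t).state = true

open Classical in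
/-- The number of random bits asked for before step `t`. -/
noncomputable def asked (x : List Bool) (ω : ℕ → Bool) (t : ℕ) : ℕ :=
  #{s ∈ range t | M.asks x ω s}

/-- From one random bit to the next the machine carries at most `W` cells of each work tape not in
`Dt` which depend on the random bits: whenever it asks for a random bit, the work tapes not in `Dt`
have at most `W |x|` visited cells, and the run with random bits `0` asks for a bit with the same
number, at the same position of the input head and with the same contents of the work tapes in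
`Dt`. -/
def Carries (Dt : Finset (Fin M.tapes)) (W : ℕ → ℕ) : Prop :=
  ∀ (x : List Bool) (ω : ℕ → Bool) (t : ℕ), M.asks x ω t →
    (∀ i ∉ Dt, ((M.run x ω t).work i).cells ≤ W x.length) ∧
    ∃ t', M.asks x (fun _ => false) t' ∧
      M.asked x (fun _ => false) t' = M.asked x ω t ∧
      (M.run x (fun _ => false) t').pos = (M.run x ω t).pos ∧
      ∀ i ∈ Dt, (M.run x (fun _ => false) t').work i = (M.run x ω t).work i

variable {M}

/-! ### The number of random bits -/

theorem asked_zero (x : List Bool) (ω : ℕ → Bool) : M.asked x ω 0 = 0 := by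
  unfold asked; simp

theorem asked_succ_of {x : List Bool} {ω : ℕ → Bool} {t : ℕ} (h : M.asks x ω t) :
    M.asked x ω (t + 1) = M.asked x ω t + 1 := by
  unfold asked
  rw [range_add_one, filter_insert, if_pos h, card_insert_of_notMem (by simp)]

theorem asked_succ_of_not {x : List Bool} {ω : ℕ → Bool} {t : ℕ} (h : ¬ M.asks x ω t) :
    M.asked x ω (t + 1) = M.asked x ω t := by
  unfold asked
  rw [range_add_one, filter_insert, if_neg h]

theorem asks_congr {x : List Bool} {ω ω' : ℕ → Bool} {t : ℕ} (h : ∀ s < t, ω s = ω' s) :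
    M.asks x ω t ↔ M.asks x ω' t := by
  unfold asks
  rw [M.run_congr h]

theorem asked_congr {x : List Bool} {ω ω' : ℕ → Bool} {t : ℕ} (h : ∀ s < t, ω s = ω' s) :
    M.asked x ω t = M.asked x ω' t := by
  have h1 : ∀ s ∈ range t, (M.asks x ω s ↔ M.asks x ω' s) := by
    intro s hs
    rw [mem_range] at hs
    exact asks_congr fun r hr => h r (by omega)
  classical
  unfold asked
  congr 1
  ext s
  simp only [mem_filter]
  exact ⟨fun h2 => ⟨h2.1, (h1 s h2.1).1 h2.2⟩, fun h2 => ⟨h2.1, (h1 s h2.1).2 h2.2⟩⟩

theorem asks_iff {x : List Bool} {ω : ℕ → Bool} {t : ℕ} :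
    M.asks x ω t ↔ M.kind (M.run x ω t).state = 1 := by
  unfold asks
  rcases kind_cases (M.run x ω t) with h | h | h | h
  · rw [h.1, h.2.1, h.2.2]; simp
  · rw [h.1, h.2.1, h.2.2]; simp
  · rw [h.1, h.2]; simp
  · rw [h.1, h.2]; simp

/-- Configurations reachable at time `t` after asking for `j` random bits. -/
def RchA (M : RTM) (x : List Bool) (t j : ℕ) (c : M.Cfg) : Prop :=
  ∃ ω, M.run x ω t = c ∧ M.asked x ω t = j

theorem RchA.rch {x : List Bool} {t j : ℕ} {c : M.Cfg} (h : M.RchA x t j c) : M.Rch x t c := by
  obtain ⟨ω, h, _⟩ := h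
  exact ⟨ω, h⟩

theorem rchA_init (x : List Bool) : M.RchA x 0 0 M.init := ⟨fun _ => false, rfl, asked_zero _ _⟩

theorem RchA.toss {x : List Bool} {t j : ℕ} {c : M.Cfg} (h : M.RchA x t j c)
    (hk : M.kind c.state = 1) (b : Bool) : M.RchA x (t + 1) (j + 1) (M.step x c b) := by
  obtain ⟨ω, rfl, hj⟩ := h
  have h0 : ∀ s < t, Function.update ω t b s = ω s := fun s hs => by
    rw [Function.update_of_ne (by omega)]
  have h1 : M.run x (Function.update ω t b) t = M.run x ω t := M.run_congr h0
  have h2 : M.verdict (M.run x ω t).state = none := by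
    rcases kind_cases (M.run x ω t) with h | h | h | h
    · exact h.2.1
    · exact h.2.1
    all_goals (exfalso; omega)
  refine ⟨Function.update ω t b, ?_, ?_⟩
  · simp only [run, h1, h2, Function.update_self]
  · rw [asked_succ_of, asked_congr h0, hj]
    rw [asks_iff, h1]; exact hk

theorem RchA.skip {x : List Bool} {t j : ℕ} {c : M.Cfg} (h : M.RchA x t j c)
    (hk : M.kind c.state = 0) : M.RchA x (t + 1) j (M.step x c false) := by
  obtain ⟨ω, rfl, hj⟩ := h
  have h2 : M.verdict (M.run x ω t).state = none ∧ M.coin (M.run x ω t).state = false := by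
    rcases kind_cases (M.run x ω t) with h | h | h | h
    · exact h.2
    all_goals (exfalso; omega)
  refine ⟨ω, ?_, ?_⟩
  · simp only [run, h2.1]
    cases ω t
    · rfl
    · unfold step
      rw [h2.2]
      rfl
  · rw [asked_succ_of_not, hj]
    rw [asks_iff]; omega

theorem RchA.skC {x : List Bool} {t j : ℕ} {c : M.Cfg} (h : M.RchA x t j c) :
    (M.kind c.state = 0 ∧ M.RchA x (t + 1) j (M.skC x c)) ∨
    (M.kind c.state ≠ 0 ∧ M.skC x c = c) := by
  unfold RTM.skC
  by_cases hk : M.kind c.state = 0
  · left
    refine ⟨hk, ?_⟩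
    rw [if_pos hk]
    exact h.skip hk
  · right; exact ⟨hk, if_neg hk⟩

theorem advC_rchA {x : List Bool} {j : ℕ} : ∀ (n t : ℕ) (c : M.Cfg),
    M.RchA x t j c → ∃ t', M.RchA x t' j (M.advC x n c) := by
  intro n
  induction n with
  | zero => intro t c hc; exact ⟨t, hc⟩
  | succ n ih =>
    intro t c hc
    simp only [advC]
    rcases hc.skC with ⟨_, h⟩ | ⟨_, h⟩
    · exact ih _ _ h
    · rw [h]
      exact ih _ _ hc

/-! ### The chain -/

/-- The states of the chain which can be reached with `j` random bits. -/
inductive RC (cs : ℕ → Bool → ℕ) (s : ℕ) : ℕ → ℕ → Prop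
  | start : RC cs s 0 s
  | step {j v : ℕ} (b : Bool) : RC cs s j v → RC cs s (j + 1) (cs v b)

theorem cod_cases {x : List Bool} {W T : ℕ} (hF : M.Fit x W T) {t j : ℕ} {c : M.Cfg}
    (hc : M.RchA x t j c) : M.cod x W T c < 2 ∨
      ∃ (t' : ℕ) (c' : M.Cfg), M.RchA x t' j c' ∧ M.kind c'.state = 1 ∧
        M.cod x W T c = M.enc W c' + 2 := by
  rw [cod_eq hF hc.rch]
  obtain ⟨t', h1⟩ := advC_rchA T t c hc
  have hk := kind_advC hF hc.rch
  unfold mrg
  rw [M.kindN_enc (hF.small _ _ h1.rch)]
  rcases kind_cases (M.advC x T c) with h | h | h | h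
  · exact absurd h.1 hk
  · right
    refine ⟨t', M.advC x T c, h1, h.1, ?_⟩
    rw [h.1]; simp
  · left
    rw [h.1]; simp
  · left
    rw [h.1]; simp

theorem cod_coin {x : List Bool} {W T : ℕ} (hF : M.Fit x W T) {t : ℕ} {c : M.Cfg}
    (hc : M.Rch x t c) (hk : M.kind c.state = 1) : M.cod x W T c = M.enc W c + 2 := by
  rw [cod_eq hF hc, advC_fix (by omega)]
  unfold mrg
  rw [M.kindN_enc (hF.small t c hc), hk]
  simp

/-- States of the chain are codes of configurations asking for a random bit. -/
theorem rc_cases {x : List Bool} {W T : ℕ} (hF : M.Fit x W T) {j v : ℕ}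
    (h : RC (M.cs x W T) (M.startN x W T) j v) : v < 2 ∨
      ∃ (t : ℕ) (c : M.Cfg), M.RchA x t j c ∧ M.kind c.state = 1 ∧ v = M.enc W c + 2 := by
  induction h with
  | start =>
    rw [start_eq]
    exact cod_cases hF (rchA_init x)
  | step b _ ih =>
    rcases ih with h | ⟨t, c, hc, hk, rfl⟩
    · left
      rw [cs_fix x W T h]; exact h
    · rw [← cod_coin hF hc.rch hk, cod_toss hF hc.rch hk]
      exact cod_cases hF (hc.toss hk b)

/-- The state of the chain with random bits `0`. -/
theorem zero_chain {x : List Bool} {W T : ℕ} (hF : M.Fit x W T) (t : ℕ) :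
    M.cod x W T (M.run x (fun _ => false) t) =
      (fun v => M.cs x W T v false)^[M.asked x (fun _ => false) t] (M.startN x W T) := by
  induction t with
  | zero =>
    rw [asked_zero, start_eq]
    rfl
  | succ t ih =>
    have hr : M.Rch x t (M.run x (fun _ => false) t) := ⟨_, rfl⟩
    rcases kind_cases (M.run x (fun _ => false) t) with h | h | h | h
    · have e : M.run x (fun _ => false) (t + 1) =
          M.step x (M.run x (fun _ => false) t) false := by
        simp only [run, h.2.1]
      rw [e, cod_det hF hr h.1, ih, asked_succ_of_not]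
      rw [asks_iff]; omega
    · have e : M.run x (fun _ => false) (t + 1) =
          M.step x (M.run x (fun _ => false) t) false := by
        simp only [run, h.2.1]
      rw [e, ← cod_toss hF hr h.1, ih, asked_succ_of (by rw [asks_iff]; exact h.1),
        Function.iterate_succ_apply']
    · have e : M.run x (fun _ => false) (t + 1) = M.run x (fun _ => false) t := by
        simp only [run, h.2]
      rw [e, ih, asked_succ_of_not]
      rw [asks_iff]; omega
    · have e : M.run x (fun _ => false) (t + 1) = M.run x (fun _ => false) t := by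
        simp only [run, h.2]
      rw [e, ih, asked_succ_of_not]
      rw [asks_iff]; omega

/-! ### Small codes -/

variable (M)

/-- The digits of a code which do not depend on the random bits. -/
def dtd (Dt : Finset (Fin M.tapes)) (j : ℕ) : Prop :=
  j = 1 ∨ ∃ i ∈ Dt, j = 2 + i.val ∨ j = 2 + M.tapes + i.val ∨
    j = 2 + M.tapes + M.tapes + i.val

open Classical in
/-- The small code, in radix `R`, of the digits which depend on the random bits; `v` is a code in
radix `B`. -/
noncomputable def smc (Dt : Finset (Fin M.tapes)) (B R v : ℕ) : ℕ :=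
  ∑ j ∈ range M.nd, (if M.dtd Dt j then 0 else dg B v j) * R ^ j

open Classical in
/-- The full code from the small code `u` and the code `w` of a configuration with the same
digits not depending on the random bits. -/
noncomputable def flc (Dt : Finset (Fin M.tapes)) (B R w u : ℕ) : ℕ :=
  ∑ j ∈ range M.nd, (if M.dtd Dt j then dg B w j else dg R u j) * B ^ j

variable {M} {Dt : Finset (Fin M.tapes)}

theorem dig_eq_of_dtd {c c' : M.Cfg} (hpos : c.pos = c'.pos)
    (hw : ∀ i ∈ Dt, c.work i = c'.work i) {j : ℕ} (hj : M.dtd Dt j) : M.dig c j = M.dig c' j := by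
  rcases hj with rfl | ⟨i, hi, rfl | rfl | rfl⟩
  · simp [dig, hpos]
  · have h1 := i.isLt
    unfold dig
    rw [if_neg (by omega), if_neg (by omega), dif_pos (by omega), if_neg (by omega),
      if_neg (by omega), dif_pos (by omega)]
    have e : (⟨2 + i.val - 2, by omega⟩ : Fin M.tapes) = i := by
      apply Fin.ext; simp only; omega
    rw [e, hw i hi]
  · have h1 := i.isLt
    unfold dig
    rw [if_neg (by omega), if_neg (by omega), dif_neg (by omega), dif_pos (by omega),
      if_neg (by omega), if_neg (by omega), dif_neg (by omega), dif_pos (by omega)]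
    have e : (⟨2 + M.tapes + i.val - 2 - M.tapes, by omega⟩ : Fin M.tapes) = i := by
      apply Fin.ext; simp only; omega
    rw [e, hw i hi]
  · have h1 := i.isLt
    unfold dig
    rw [if_neg (by omega), if_neg (by omega), dif_neg (by omega), dif_neg (by omega),
      dif_pos (by omega), if_neg (by omega), if_neg (by omega), dif_neg (by omega),
      dif_neg (by omega), dif_pos (by omega)]
    have e : (⟨2 + M.tapes + M.tapes + i.val - 2 - M.tapes - M.tapes, by omega⟩ :
        Fin M.tapes) = i := by
      apply Fin.ext; simp only; omega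
    rw [e, hw i hi]

theorem dig_lt_of_not_dtd {c : M.Cfg} {S R : ℕ} (hS : ∀ i ∉ Dt, (c.work i).cells ≤ S)
    (hR1 : Fintype.card M.State ≤ R) (hR2 : M.g ^ (S + 1) ≤ R) {j : ℕ} (hj : ¬ M.dtd Dt j) :
    M.dig c j < R := by
  have hg := M.two_le_g
  have hgR : M.g ≤ R := by
    calc M.g = M.g ^ 1 := (pow_one _).symm
      _ ≤ M.g ^ (S + 1) := Nat.pow_le_pow_right (by omega) (by omega)
      _ ≤ R := hR2
  unfold dig
  split_ifs with h1 h2 h3 h4 h5
  · exact (M.cQ_lt _).trans_le hR1
  · exact absurd (Or.inl h2) hj
  · have hi : (⟨j - 2, h3⟩ : Fin M.tapes) ∉ Dt := fun hi =>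
      hj (Or.inr ⟨_, hi, Or.inl (by simp only; omega)⟩)
    refine (M.num_lt _).trans_le (le_trans (Nat.pow_le_pow_right (by omega) ?_) hR2)
    have h6 := hS _ hi
    unfold Tape.cells at h6
    omega
  · exact (M.cS_lt _).trans_le hgR
  · have hi : (⟨j - 2 - M.tapes - M.tapes, h5⟩ : Fin M.tapes) ∉ Dt := fun hi =>
      hj (Or.inr ⟨_, hi, Or.inr (Or.inr (by simp only; omega))⟩)
    refine (M.num_lt _).trans_le (le_trans (Nat.pow_le_pow_right (by omega) ?_) hR2)
    have h6 := hS _ hi
    unfold Tape.cells at h6
    omega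
  · omega

theorem dg_enc {B : ℕ} {c : M.Cfg} (h : M.Small B c) {j : ℕ} (hj : j < M.nd) :
    dg B (M.enc B c) j = M.dig c j := M.enc_digit h hj

section small

variable {B R : ℕ} {c : M.Cfg} (hR : 0 < R) (hc : M.Small B c)
  (hd : ∀ j, ¬ M.dtd Dt j → M.dig c j < R)

include hc

open Classical in
theorem smc_enc : M.smc Dt B R (M.enc B c) =
    ∑ j ∈ range M.nd, (if M.dtd Dt j then 0 else M.dig c j) * R ^ j := by
  unfold smc
  refine sum_congr rfl fun j hj => ?_
  rw [dg_enc hc (mem_range.1 hj)]

include hR hd

theorem smc_lt : M.smc Dt B R (M.enc B c) < R ^ M.nd := by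
  classical
  rw [smc_enc hc]
  refine sum_lt_pow _ (fun j => ?_) _
  split_ifs with h
  · exact hR
  · exact hd j h

theorem flc_smc {c' : M.Cfg} (hc' : M.Small B c')
    (he : ∀ j, M.dtd Dt j → M.dig c' j = M.dig c j) :
    M.flc Dt B R (M.enc B c') (M.smc Dt B R (M.enc B c)) = M.enc B c := by
  classical
  rw [smc_enc hc]
  unfold flc
  conv_rhs => unfold enc
  refine sum_congr rfl fun j hj => ?_
  rw [mem_range] at hj
  congr 1
  split_ifs with h
  · rw [dg_enc hc' hj, he j h]
  · unfold dg
    rw [digit_sum hR _ (fun i => by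
      split_ifs with h2
      · exact hR
      · exact hd i h2) _ _ hj, if_neg h]

end small

end RTM

end Vale.Agent.P313
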