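import Vale.Agent.P313.H638.G1
import Vale.Agent.P313.H638.G4
import Vale.Agent.P313.H72.MWb

/-!
The matrices of a machine which carries few cells of memory, and their product.
-/

namespace Vale.Agent.P313.MW

open Finset

/-! ### Products from the right -/

/-- The column `v` of the product of the matrices `j, ..., j + r - 1`. -/
def tailG (E : ℕ → ℕ → ℕ → ℕ) (W K v : ℕ) : ℕ → ℕ → ℕ → ℚ
  | 0, _, u => if u = v then 1 else 0
  | r + 1, j, u => ∑ s ∈ range (2 ^ W), (E j u s : ℚ) / 2 ^ K * tailG E W K v r (j + 1) s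

theorem prodG_tail (E : ℕ → ℕ → ℕ → ℕ) (W K u : ℕ) {v : ℕ} (hv : v < 2 ^ W) : ∀ r t,
    prodG E W K (t + r) u v = ∑ s ∈ range (2 ^ W), prodG E W K t u s * tailG E W K v r t s := by
  intro r
  induction r with
  | zero =>
    intro t
    simp only [tailG, add_zero, mul_ite, mul_one, mul_zero]
    rw [sum_ite_eq' (range (2 ^ W)) v (fun s => prodG E W K t u s), if_pos (mem_range.2 hv)]
  | succ r ih =>
    intro t
    rw [show t + (r + 1) = (t + 1) + r by ring, ih (t + 1)]
    simp only [prodG, tailG, sum_mul, mul_sum]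
    rw [sum_comm]
    refine sum_congr rfl fun s _ => sum_congr rfl fun s' _ => by ring

theorem prodG_eq_tail (E : ℕ → ℕ → ℕ → ℕ) (W K : ℕ) {u v : ℕ} (hu : u < 2 ^ W) (hv : v < 2 ^ W)
    (r : ℕ) : prodG E W K r u v = tailG E W K v r 0 u := by
  have h := prodG_tail E W K u hv r 0
  rw [zero_add] at h
  rw [h]
  simp only [prodG, ite_mul, one_mul, zero_mul]
  rw [sum_ite_eq (range (2 ^ W)) u (fun s => tailG E W K v r 0 s), if_pos (mem_range.2 hu)]

/-! ### Matrices of functions with one random bit -/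

/-- The numerators of the matrices of the functions `nx`. -/
noncomputable def EM (nx : ℕ → ℕ → ℕ → ℕ) (j u v : ℕ) : ℕ :=
  ind (nx j u 0 = v) + ind (nx j u 1 = v)

theorem sum_ind (w N : ℕ) : ∑ v ∈ range N, ind (w = v) ≤ 1 := by
  by_cases h : w < N
  · rw [sum_eq_single_of_mem w (mem_range.2 h) (fun v _ hv => ind_false (fun e => hv e.symm)),
      ind_true rfl]
  · rw [sum_eq_zero]
    · exact Nat.zero_le 1
    · intro v hv
      rw [mem_range] at hv
      exact ind_false (fun e => by omega)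

theorem subG_EM (nx : ℕ → ℕ → ℕ → ℕ) (lam W : ℕ) : SubG (EM nx) lam W 1 := by
  intro t _ u _
  unfold EM
  rw [sum_add_distrib]
  have h1 := sum_ind (nx t u 0) (2 ^ W)
  have h2 := sum_ind (nx t u 1) (2 ^ W)
  omega

theorem sum_ind_mul {w N : ℕ} (hw : w < N) (f : ℕ → ℚ) :
    ∑ v ∈ range N, (ind (w = v) : ℚ) * f v = f w := by
  rw [sum_eq_single_of_mem w (mem_range.2 hw)]
  · rw [ind_true rfl]; simp
  · intro v _ hv
    rw [ind_false (fun e => hv e.symm)]; simp

/-- The product of the matrices of a coded chain. -/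
theorem tail_eq_hit {nx : ℕ → ℕ → ℕ → ℕ} {W : ℕ} {cs : ℕ → Bool → ℕ} {s : ℕ} {σ : ℕ → ℕ}
    (h1 : ∀ j v, RTM.RC cs s j v → σ v < 2 ^ W)
    (h2 : ∀ j v, RTM.RC cs s j v → ∀ b : Bool, nx j (σ v) b.toNat = σ (cs v b))
    (h3 : ∀ j v, RTM.RC cs s j v → (σ v = 0 ↔ v = 0)) :
    ∀ r j v, RTM.RC cs s j v → tailG (EM nx) W 1 0 r j (σ v) = hit cs 0 r v := by
  intro r
  induction r with
  | zero =>
    intro j v hv
    simp only [tailG, hit]
    simp only [h3 j v hv]
  | succ r ih =>
    intro j v hv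
    simp only [tailG, hit]
    have e0 : nx j (σ v) 0 = σ (cs v false) := h2 j v hv false
    have e1 : nx j (σ v) 1 = σ (cs v true) := h2 j v hv true
    have hv0 := hv.step false
    have hv1 := hv.step true
    rw [← ih (j + 1) _ hv0, ← ih (j + 1) _ hv1,
      ← sum_ind_mul (h1 _ _ hv0) (fun s => tailG (EM nx) W 1 0 r (j + 1) s),
      ← sum_ind_mul (h1 _ _ hv1) (fun s => tailG (EM nx) W 1 0 r (j + 1) s),
      ← sum_add_distrib, sum_div]
    refine sum_congr rfl fun u _ => ?_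
    unfold EM
    rw [e0, e1]
    push_cast
    ring

theorem prod_eq_hit {nx : ℕ → ℕ → ℕ → ℕ} {W : ℕ} {cs : ℕ → Bool → ℕ} {s : ℕ} {σ : ℕ → ℕ}
    (h1 : ∀ j v, RTM.RC cs s j v → σ v < 2 ^ W)
    (h2 : ∀ j v, RTM.RC cs s j v → ∀ b : Bool, nx j (σ v) b.toNat = σ (cs v b))
    (h3 : ∀ j v, RTM.RC cs s j v → (σ v = 0 ↔ v = 0)) (r : ℕ) :
    prodG (EM nx) W 1 r (σ s) 0 = hit cs 0 r s := by
  rw [prodG_eq_tail _ _ _ (h1 0 s .start) (Nat.two_pow_pos W)]
  exact tail_eq_hit h1 h2 h3 r 0 s .start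

/-! ### The matrices of a machine -/

section machine

variable (M : RTM) (c : ℕ) (Dt : Finset (Fin M.tapes)) (W : ℕ → ℕ)

/-- The number of bits of a symbol or a state. -/
noncomputable def mE : ℕ := Nat.log 2 (M.g + Fintype.card M.State) + 1

/-- The radix of the small codes. -/
noncomputable def mR (x : List Bool) : ℕ := 2 ^ (mE M * (W x.length + 1))

/-- The number of bits of the small codes. -/
noncomputable def mW (n : ℕ) : ℕ := mE M * (W n + 1) * M.nd + 2

/-- The state of the chain with random bits `0`. -/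
noncomputable def refM (x : List Bool) (j : ℕ) : ℕ :=
  (fun v => M.csN x (Sel.sW M c x) (Sel.sT c x) v 0)^[j] (M.startN x (Sel.sW M c x) (Sel.sT c x))

/-- The small code of a state of the chain. -/
noncomputable def smM (x : List Bool) (v : ℕ) : ℕ :=
  if v < 2 then v else M.smc Dt (Sel.sW M c x) (mR M W x) (v - 2) + 2

/-- The state of the chain number `j` from the small code. -/
noncomputable def flM (x : List Bool) (j u : ℕ) : ℕ :=
  if u < 2 then u else
    M.flc Dt (Sel.sW M c x) (mR M W x) (refM M c x j - 2) (u - 2) + 2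

/-- One step on small codes. -/
noncomputable def nxM (x : List Bool) (j u b : ℕ) : ℕ :=
  smM M c Dt W x (M.csN x (Sel.sW M c x) (Sel.sT c x) (flM M c Dt W x j u) b)

variable {M c Dt W}

theorem mE_spec : M.g ≤ 2 ^ mE M ∧ Fintype.card M.State ≤ 2 ^ mE M := by
  have h := Nat.lt_pow_succ_log_self (b := 2) (by norm_num) (M.g + Fintype.card M.State)
  unfold mE
  constructor <;> omega

theorem mR_spec (x : List Bool) : 0 < mR M W x ∧ Fintype.card M.State ≤ mR M W x ∧
    M.g ^ (W x.length + 1) ≤ mR M W x := by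
  obtain ⟨h1, h2⟩ := mE_spec (M := M)
  refine ⟨Nat.two_pow_pos _, h2.trans (Nat.pow_le_pow_right (by norm_num)
    (Nat.le_mul_of_pos_right _ (Nat.succ_pos _))), ?_⟩
  unfold mR
  rw [pow_mul]
  exact Nat.pow_le_pow_left h1 _

variable (hM : M.Bounded (fun n => (n + 2) ^ c) (fun n => c * Nat.log 2 (n + 2)))
  (hC : M.Carries Dt W) (x : List Bool)

include hM hC

/-- What is known about a state of the chain. -/
theorem rcM {j v : ℕ}
    (h : RTM.RC (M.cs x (Sel.sW M c x) (Sel.sT c x)) (M.startN x (Sel.sW M c x) (Sel.sT c x))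
      j v) : v < 2 ∨ ∃ (cf c' : M.Cfg), M.Small (Sel.sW M c x) cf ∧ M.Small (Sel.sW M c x) c' ∧
      v = M.enc (Sel.sW M c x) cf + 2 ∧ refM M c x j = M.enc (Sel.sW M c x) c' + 2 ∧
      (∀ i, ¬ M.dtd Dt i → M.dig cf i < mR M W x) ∧
      ∀ i, M.dtd Dt i → M.dig c' i = M.dig cf i := by
  have hF : M.Fit x (Sel.sW M c x) (Sel.sT c x) := Sel.fit hM (fun n => Nat.le_add_right _ _) x
  rcases RTM.rc_cases hF h with h | ⟨t, cf, hc, hk, rfl⟩
  · exact Or.inl h
  · right
    obtain ⟨ω, rfl, hj⟩ := hc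
    obtain ⟨h1, t', h2, h3, h4, h5⟩ := hC x ω t (RTM.asks_iff.2 hk)
    have hr : M.Rch x t (M.run x ω t) := ⟨_, rfl⟩
    have hr' : M.Rch x t' (M.run x (fun _ => false) t') := ⟨_, rfl⟩
    obtain ⟨hR0, hR1, hR2⟩ := mR_spec (M := M) (W := W) x
    refine ⟨M.run x ω t, M.run x (fun _ => false) t', hF.small t _ hr, hF.small t' _ hr', rfl,
      ?_, fun i hi => RTM.dig_lt_of_not_dtd h1 hR1 hR2 hi, fun i hi =>
        RTM.dig_eq_of_dtd h4 h5 hi⟩
    rw [← RTM.cod_coin hF hr' (RTM.asks_iff.1 h2), RTM.zero_chain hF t', h3, hj]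
    rfl

theorem flM_smM {j v : ℕ}
    (h : RTM.RC (M.cs x (Sel.sW M c x) (Sel.sT c x)) (M.startN x (Sel.sW M c x) (Sel.sT c x))
      j v) : flM M c Dt W x j (smM M c Dt W x v) = v := by
  rcases rcM hM hC x h with h | ⟨cf, c', h1, h2, rfl, h4, h5, h6⟩
  · unfold smM flM
    rw [if_pos h, if_pos h]
  · have e : smM M c Dt W x (M.enc (Sel.sW M c x) cf + 2) =
        M.smc Dt (Sel.sW M c x) (mR M W x) (M.enc (Sel.sW M c x) cf) + 2 := by
      unfold smM
      rw [if_neg (by omega), Nat.add_sub_cancel]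
    rw [e]
    unfold flM
    rw [if_neg (by omega), Nat.add_sub_cancel, h4,
      Nat.add_sub_cancel, RTM.flc_smc (mR_spec x).1 h1 h5 h2 h6]

theorem smM_lt {j v : ℕ}
    (h : RTM.RC (M.cs x (Sel.sW M c x) (Sel.sT c x)) (M.startN x (Sel.sW M c x) (Sel.sT c x))
      j v) : smM M c Dt W x v < 2 ^ mW M W x.length := by
  have h0 : 2 * 2 ≤ 2 ^ mW M W x.length := by
    calc 2 * 2 = 2 ^ 2 := by norm_num
      _ ≤ _ := Nat.pow_le_pow_right (by norm_num) (by unfold mW; omega)
  rcases rcM hM hC x h with h | ⟨cf, c', h1, h2, rfl, h4, h5, h6⟩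
  · unfold smM
    rw [if_pos h]
    omega
  · unfold smM
    rw [if_neg (by omega), Nat.add_sub_cancel]
    have h7 := RTM.smc_lt (mR_spec (M := M) (W := W) x).1 h1 h5
    have h8 : mR M W x ^ M.nd * 4 = 2 ^ mW M W x.length := by
      unfold mR mW
      rw [pow_add, ← pow_mul]
      norm_num
    omega

omit hM hC in
theorem smM_zero (v : ℕ) : smM M c Dt W x v = 0 ↔ v = 0 := by
  unfold smM
  by_cases h1 : v < 2
  · rw [if_pos h1]
  · rw [if_neg h1]
    constructor <;> intro h2 <;> omega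

/-- The entry of the product is the probability of absorption. -/
theorem prodM_eq_hit (r : ℕ) :
    prodG (EM (nxM M c Dt W x)) (mW M W x.length) 1 r
      (smM M c Dt W x (M.startN x (Sel.sW M c x) (Sel.sT c x))) 0 =
    hit (M.cs x (Sel.sW M c x) (Sel.sT c x)) 0 r (M.startN x (Sel.sW M c x) (Sel.sT c x)) :=
  prod_eq_hit (fun j v h => smM_lt hM hC x h) (fun j v h b => by
    unfold nxM
    rw [flM_smM hM hC x h]
    rfl) (fun j v _ => smM_zero x v) r

/-- The entry of the product is the probability of acceptance. -/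
theorem prodM_eq_prob {r : ℕ} (hr : ∀ v : Bool, M.probAt x v ((x.length + 2) ^ c) (r + 1)
    M.init = 0) :
    prodG (EM (nxM M c Dt W x)) (mW M W x.length) 1 r
      (smM M c Dt W x (M.startN x (Sel.sW M c x) (Sel.sT c x))) 0 =
    M.probAt x true ((x.length + 2) ^ c) 0 M.init := by
  rw [prodM_eq_hit hM hC x r]
  have h1 := CT.chain_prob hM x
  rw [CT.hitR_eq] at h1
  have h2 : hit (M.cs x (Sel.sW M c x) (Sel.sT c x)) 0 (Sel.sT c x)
      (M.startN x (Sel.sW M c x) (Sel.sT c x)) =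
      M.probAt x true ((x.length + 2) ^ c) 0 M.init := by exact_mod_cast h1
  rw [← h2]
  rcases le_total r (Sel.sT c x) with h3 | h3
  · have h4 := CT.chain_few hM x hr 0
    rw [min_eq_left h3, CT.hitR_eq, CT.hitR_eq] at h4
    exact_mod_cast h4
  · have hch := CT.chain_ok hM x (n := Sel.sW M c x ^ M.nd + 3) le_rfl
    have h5 := hch.total
    rw [CT.hitR_eq, CT.hitR_eq] at h5
    have h6 : hit (M.cs x (Sel.sW M c x) (Sel.sT c x)) 0 (Sel.sT c x)
        (M.startN x (Sel.sW M c x) (Sel.sT c x)) +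
        hit (M.cs x (Sel.sW M c x) (Sel.sT c x)) 1 (Sel.sT c x)
        (M.startN x (Sel.sW M c x) (Sel.sT c x)) = 1 := by exact_mod_cast h5
    have h7 := hit_mono' (cs := M.cs x (Sel.sW M c x) (Sel.sT c x)) (w := 0)
      (fun b => hch.fix0 b) h3 (M.startN x (Sel.sW M c x) (Sel.sT c x))
    have h8 := hit_mono' (cs := M.cs x (Sel.sW M c x) (Sel.sT c x)) (w := 1)
      (fun b => hch.fix1 b) h3 (M.startN x (Sel.sW M c x) (Sel.sT c x))
    have h9 := CT.hit_total_le (M.cs x (Sel.sW M c x) (Sel.sT c x)) r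
      (M.startN x (Sel.sW M c x) (Sel.sT c x))
    linarith

end machine

/-! ### Computability -/

section lf

variable {M : RTM} {c : ℕ} {Dt : Finset (Fin M.tapes)} {W : ℕ → ℕ} {k : ℕ}

theorem lf_smc {B R v : Fn k} (hB : LF B) (hR : LF R) (hv : LF v) :
    LF (fun x a => M.smc Dt (B x a) (R x a) (v x a)) := by
  unfold RTM.smc
  refine LF.finsetSum (range M.nd) (fun j => ?_)
  refine LF.mul ?_ (hR.powConst j)
  by_cases h : M.dtd Dt j
  · simp only [if_pos h]
    exact LF.const 0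
  · simp only [if_neg h]
    exact LF.dg hB hv j

theorem lf_flc {B R w u : Fn k} (hB : LF B) (hR : LF R) (hw : LF w) (hu : LF u) :
    LF (fun x a => M.flc Dt (B x a) (R x a) (w x a) (u x a)) := by
  unfold RTM.flc
  refine LF.finsetSum (range M.nd) (fun j => ?_)
  refine LF.mul ?_ (hB.powConst j)
  by_cases h : M.dtd Dt j
  · simp only [if_pos h]
    exact LF.dg hB hw j
  · simp only [if_neg h]
    exact LF.dg hR hu j

theorem lf_ref {j : Fn k} (hj : LF j) : LF (fun x a => refM M c x (j x a)) := by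
  have hW : ∀ m, LF (fun x _ => Sel.sW M c x : Fn m) := fun m => Sel.lfx_W.lf m
  have h1 := LF.iterate (k := k) (f := fun x b => M.csN x (Sel.sW M c x) (Sel.sT c x) (b 0) 0)
    (g := fun x _ => M.startN x (Sel.sW M c x) (Sel.sT c x)) (n := j)
    (CT.lf_cs M c (LF.proj 0) (LF.const 0)) ((CT.lfx_start M c).lf k) hj
    (fun x a => M.startN x (Sel.sW M c x) (Sel.sT c x) + (Sel.sW M c x ^ M.nd + 2))
    (((CT.lfx_start M c).lf k).pb.add (((hW k).pb.pow _).add (PB.const 2))) (fun x a i _ => by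
      simp only [Fin.cons_zero]
      induction i with
      | zero => exact Nat.le_add_right _ _
      | succ i ih =>
        have ih := ih (by omega)
        rw [Function.iterate_succ_apply']
        unfold RTM.csN RTM.clp
        split_ifs
        · exact ih
        · omega
        · omega
        · exact ih)
  refine h1.congr (fun x a => ?_)
  unfold refM
  simp only [Fin.cons_zero]

variable {c' : ℕ} (hW : LF (fun x _ => W x.length : Fn 0))
  (hWc : ∀ n, W n ≤ c' * Nat.log 2 (n + 2))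

theorem mul_log_le {a c n m : ℕ} (h : m ≤ c * Nat.log 2 (n + 2)) :
    a * (m + 1) ≤ (a * (c + 1)) * Nat.log 2 (n + 2) := by
  have h1 : 1 ≤ Nat.log 2 (n + 2) := Nat.log_pos (by norm_num) (by omega)
  rw [mul_assoc]
  exact Nat.mul_le_mul_left _ (by rw [add_mul, one_mul]; omega)

include hW hWc

theorem lf_mR : LF (fun x _ => mR M W x : Fn k) :=
  lf_x (lf_twoPow (f := fun n => mE M * (W n + 1)) ((LF.const _).mul hW.succ)
    (fun n => mul_log_le (hWc n))) k

theorem lf_smM {v : Fn k} (hv : LF v) : LF (fun x a => smM M c Dt W x (v x a)) := by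
  unfold smM
  exact LF.ite (LFP.lt hv (LF.const 2)) hv
    ((lf_smc (Sel.lfx_W.lf k) (lf_mR hW hWc) (hv.sub (LF.const 2))).add (LF.const 2))

theorem lf_flM {j u : Fn k} (hj : LF j) (hu : LF u) :
    LF (fun x a => flM M c Dt W x (j x a) (u x a)) := by
  unfold flM
  exact LF.ite (LFP.lt hu (LF.const 2)) hu
    ((lf_flc (Sel.lfx_W.lf k) (lf_mR hW hWc) ((lf_ref hj).sub (LF.const 2))
      (hu.sub (LF.const 2))).add (LF.const 2))

theorem lf_EM : LF (fun x a => EM (nxM M c Dt W x) (a 0) (a 1) (a 2) : Fn 3) := by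
  unfold EM nxM
  refine LF.add (LFP.eq (lf_smM hW hWc (CT.lf_cs M c (lf_flM hW hWc (LF.proj 0) (LF.proj 1))
    (LF.const 0))) (LF.proj 2)) (LFP.eq (lf_smM hW hWc (CT.lf_cs M c (lf_flM hW hWc (LF.proj 0)
    (LF.proj 1)) (LF.const 1))) (LF.proj 2))

end lf

end Vale.Agent.P313.MW
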