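import Vale.Agent.P313.H638.G3
import Vale.Agent.P313.H638.G5

/-!
Medium width: matrices of the input, bits of approximate entries, machines.
-/

namespace Vale.Agent.P313.MW

open Finset

/-! ### Thresholds and bits -/

section thr

variable {p : ℚ} {w r c : ℕ}

/-- Comparison with a threshold. -/
theorem thr_of_near (h : |(w : ℚ) / 2 ^ (r + 2) - p| < 1 / 2 ^ (r + 1)) :
    (((c : ℚ) + 1) / 2 ^ r ≤ p → 2 * (2 * c + 1) < w) ∧
    (p ≤ (c : ℚ) / 2 ^ r → ¬ 2 * (2 * c + 1) < w) := by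
  have h2 : (0 : ℚ) < 2 ^ r := by positivity
  have e1 : (2 : ℚ) ^ (r + 1) = 2 * 2 ^ r := by rw [pow_succ]; ring
  have e2 : (2 : ℚ) ^ (r + 2) = 4 * 2 ^ r := by rw [pow_add]; ring
  rw [e1, e2, abs_lt] at h
  obtain ⟨ha, hb⟩ := h
  have hw : (w : ℚ) / (4 * 2 ^ r) * (4 * 2 ^ r) = w := div_mul_cancel₀ _ (by positivity)
  have h3 : (1 : ℚ) / (2 * 2 ^ r) * (4 * 2 ^ r) = 2 := by
    rw [div_mul_eq_mul_div, div_eq_iff (by positivity)]; ring
  have ha' : (p - 1 / (2 * 2 ^ r)) * (4 * 2 ^ r) < w := by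
    rw [← hw]
    exact mul_lt_mul_of_pos_right (by linarith) (by positivity)
  have hb' : (w : ℚ) < (p + 1 / (2 * 2 ^ r)) * (4 * 2 ^ r) := by
    rw [← hw]
    exact mul_lt_mul_of_pos_right (by linarith) (by positivity)
  rw [sub_mul, h3] at ha'
  rw [add_mul, h3] at hb'
  constructor
  · intro h4
    rw [div_le_iff₀ h2] at h4
    have h5 : ((2 * (2 * c + 1) : ℕ) : ℚ) < (w : ℚ) := by
      push_cast
      linarith
    exact_mod_cast h5
  · intro h4 h5
    rw [le_div_iff₀ h2] at h4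
    have h6 : ((2 * (2 * c + 1) : ℕ) : ℚ) < (w : ℚ) := by exact_mod_cast h5
    push_cast at h6
    linarith

/-- Rounding. -/
theorem round_near (h : |(w : ℚ) / 2 ^ (r + 2) - p| < 1 / 2 ^ (r + 1)) :
    |(((w + 2) / 4 : ℕ) : ℚ) / 2 ^ r - p| ≤ 1 / 2 ^ r := by
  have h2 : (0 : ℚ) < 2 ^ r := by positivity
  have e1 : (2 : ℚ) ^ (r + 1) = 2 * 2 ^ r := by rw [pow_succ]; ring
  have e2 : (2 : ℚ) ^ (r + 2) = 4 * 2 ^ r := by rw [pow_add]; ring
  rw [e1, e2, abs_lt] at h
  obtain ⟨ha, hb⟩ := h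
  have hw : (w : ℚ) / (4 * 2 ^ r) * (4 * 2 ^ r) = w := div_mul_cancel₀ _ (by positivity)
  have h3 : (1 : ℚ) / (2 * 2 ^ r) * (4 * 2 ^ r) = 2 := by
    rw [div_mul_eq_mul_div, div_eq_iff (by positivity)]; ring
  have ha' : (p - 1 / (2 * 2 ^ r)) * (4 * 2 ^ r) < w := by
    rw [← hw]
    exact mul_lt_mul_of_pos_right (by linarith) (by positivity)
  have hb' : (w : ℚ) < (p + 1 / (2 * 2 ^ r)) * (4 * 2 ^ r) := by
    rw [← hw]
    exact mul_lt_mul_of_pos_right (by linarith) (by positivity)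
  rw [sub_mul, h3] at ha'
  rw [add_mul, h3] at hb'
  have h4 : (w + 2) / 4 * 4 ≤ w + 2 := Nat.div_mul_le_self _ _
  have h5 : w + 2 < (w + 2) / 4 * 4 + 4 := Nat.lt_div_mul_add (by norm_num)
  have h4' : (((w + 2) / 4 : ℕ) : ℚ) * 4 ≤ w + 2 := by exact_mod_cast h4
  have h5' : (w : ℚ) + 2 < (((w + 2) / 4 : ℕ) : ℚ) * 4 + 4 := by exact_mod_cast h5
  rw [abs_le]
  constructor
  · rw [neg_le_sub_iff_le_add, ← sub_nonneg]
    have : (((w + 2) / 4 : ℕ) : ℚ) / 2 ^ r + 1 / 2 ^ r - p =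
        ((((w + 2) / 4 : ℕ) : ℚ) + 1 - p * 2 ^ r) / 2 ^ r := by
      field_simp
    rw [this]
    apply div_nonneg _ h2.le
    linarith
  · rw [sub_le_iff_le_add, ← sub_nonneg]
    have : 1 / 2 ^ r + p - (((w + 2) / 4 : ℕ) : ℚ) / 2 ^ r =
        (1 + p * 2 ^ r - (((w + 2) / 4 : ℕ) : ℚ)) / 2 ^ r := by
      field_simp
    rw [this]
    apply div_nonneg _ h2.le
    linarith

end thr

/-! ### Matrices of the input -/

theorem subG_entry {x : List Bool} {lam W K r : ℕ} :
    SubG (fun t u v => entry x W K r t u v) lam W K ↔ SubSt x lam W K r := Iff.rfl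

/-- The rounded approximate entries, as a function of the numerators of the matrices. -/
noncomputable def appG (lam W K g r : ℕ → ℕ) (n : ℕ) (E : ℕ → ℕ → ℕ → ℕ) (u v : ℕ) : ℕ :=
  (valG E (lam n) (W n) (K n) (g n) (r n) (theM (lam n) (W n) (g n)) u v + 2) / 4

section input

variable (hV : ModV) (hL : ModL) (hN : ModN) (hK2 : ModK2) (hK3 : ModK3)
  {lam W K g r : ℕ → ℕ} (hlam : LogConstructible lam) (hW : LogConstructible W)
  (hK : LogConstructible K) (hg : LogConstructible g) (hr : LogConstructible r)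
  (hrg : ∀ n, r n ≤ g n + W n)

include hV hL hN hK2 hK3 hlam hW hK hg hr hrg

/-- Matrices of the input, thresholds. -/
theorem input_thr :
    ∃ (A : Set (List Bool)) (D : RTM) (e : ℝ),
      D.Decides A (fun n => (2 : ℝ) ^ (e * theS lam W g n)) (fun n => e * theS lam W g n) ∧
      ∀ x : List Bool, SubSt x (lam x.length) (W x.length) (K x.length) (r x.length) →
        (((num x (2 * W x.length) (r x.length + 1) : ℚ) + 1) / 2 ^ r x.length ≤
          prodM x (W x.length) (K x.length) (r x.length) (2 ^ lam x.length)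
            (num x 0 (W x.length)) (num x (W x.length) (W x.length)) → x ∈ A) ∧
        (prodM x (W x.length) (K x.length) (r x.length) (2 ^ lam x.length)
            (num x 0 (W x.length)) (num x (W x.length) (W x.length)) ≤
          (num x (2 * W x.length) (r x.length + 1) : ℚ) / 2 ^ r x.length → x ∉ A) := by
  obtain ⟨c, P⟩ := exists_par hlam hW hK hg
  obtain ⟨c', P'⟩ := exists_par hlam hW hK hr
  have hE : LF (fun x a => entry x (W x.length) (K x.length) (r x.length) (a 0) (a 1) (a 2) :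
      Fn 3) := P'.lf_entry (LF.proj 0) (LF.proj 1) (LF.proj 2)
  have hΦ : LFP (fun x a => 2 * (2 * num x (2 * W x.length) (r x.length + 1) + 1) < a 0 :
      List Bool → (Fin 1 → ℕ) → Prop) :=
    LFP.lt ((LF.const 2).mul ((LF.const 2).mul
      (lf_num ((LF.const 2).mul (lf_x P.hW 1)) P'.hg P'.gc)).succ) (LF.proj 0)
  obtain ⟨D, e, hD⟩ := gen_pred hL hN P P'.hg P'.gc (E := fun x t u v =>
    entry x (W x.length) (K x.length) (r x.length) t u v) hE (u := fun x => num x 0 (W x.length))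
    (v := fun x => num x (W x.length) (W x.length)) (lf_num' (LF.const 0) P.hW P.Wc)
    (lf_num' (lf_x P.hW 0) P.hW P.Wc)
    (Φ := fun x w => 2 * (2 * num x (2 * W x.length) (r x.length + 1) + 1) < w) hΦ
  refine ⟨_, D, e, hD, fun x hx => ?_⟩
  have h1 := valG_near hV hN hK2 hK3 (g := g x.length) (r := r x.length)
    (M := theM (lam x.length) (W x.length) (g x.length)) (subG_entry.2 hx) (hrg _)
    (hN.1 _ _ _).2.2.2.2.2.1 (num_lt x 0 (W x.length)) (num_lt x (W x.length) (W x.length))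
  have h2 := thr_of_near (c := num x (2 * W x.length) (r x.length + 1)) h1
  rw [← prodM_eq_prodG] at h2
  exact h2

/-- Matrices of the input, bits of approximate entries. -/
theorem input_bits :
    (∀ x : List Bool, SubSt x (lam x.length) (W x.length) (K x.length) (r x.length) →
      ∀ u < 2 ^ W x.length, ∀ v < 2 ^ W x.length,
        |(appG lam W K g r x.length
          (fun t u v => entry x (W x.length) (K x.length) (r x.length) t u v) u v : ℚ) /
            2 ^ r x.length -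
          prodM x (W x.length) (K x.length) (r x.length) (2 ^ lam x.length) u v| ≤
          1 / 2 ^ r x.length) ∧
    ∃ (D : RTM) (e : ℝ),
      D.Decides {x | appG lam W K g r x.length
          (fun t u v => entry x (W x.length) (K x.length) (r x.length) t u v)
          (num x 0 (W x.length)) (num x (W x.length) (W x.length)) /
            2 ^ num x (2 * W x.length) (r x.length + 1) % 2 = 1}
        (fun n => (2 : ℝ) ^ (e * theS lam W g n)) (fun n => e * theS lam W g n) := by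
  obtain ⟨c, P⟩ := exists_par hlam hW hK hg
  obtain ⟨c', P'⟩ := exists_par hlam hW hK hr
  constructor
  · intro x hx u hu v hv
    have h1 := valG_near hV hN hK2 hK3 (g := g x.length) (r := r x.length)
      (M := theM (lam x.length) (W x.length) (g x.length)) (subG_entry.2 hx) (hrg _)
      (hN.1 _ _ _).2.2.2.2.2.1 hu hv
    rw [prodM_eq_prodG]
    exact round_near h1
  · have hE : LF (fun x a => entry x (W x.length) (K x.length) (r x.length) (a 0) (a 1) (a 2) :
        Fn 3) := P'.lf_entry (LF.proj 0) (LF.proj 1) (LF.proj 2)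
    have hΦ : LFP (fun x a => (a 0 + 2) / 4 / 2 ^ num x (2 * W x.length) (r x.length + 1) % 2 = 1 :
        List Bool → (Fin 1 → ℕ) → Prop) := by
      refine LFP.eq (LF.mod (LF.divPow (LF.const 2) (((LF.proj 0).add (LF.const 2)).div
        (LF.const 4)) ?_) (LF.const 2)) (LF.const 1)
      exact lf_num ((LF.const 2).mul (lf_x P.hW 1)) P'.hg P'.gc
    exact gen_pred hL hN P P'.hg P'.gc (E := fun x t u v =>
      entry x (W x.length) (K x.length) (r x.length) t u v) hE
      (u := fun x => num x 0 (W x.length)) (v := fun x => num x (W x.length) (W x.length))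
      (lf_num' (LF.const 0) P.hW P.Wc) (lf_num' (lf_x P.hW 0) P.hW P.Wc)
      (Φ := fun x w => (w + 2) / 4 / 2 ^ num x (2 * W x.length) (r x.length + 1) % 2 = 1) hΦ

end input

/-! ### Machines -/

theorem sqrt_nat_le (t : ℕ) : Real.sqrt t ≤ t := by
  rcases Nat.eq_zero_or_pos t with h | h
  · rw [h]; simp
  · rw [Real.sqrt_le_left (Nat.cast_nonneg t)]
    have h1 : (1 : ℝ) ≤ t := by exact_mod_cast h
    nlinarith

theorem theS_le {lam W W' g : ℕ → ℕ} {C : ℕ} (h : ∀ n, W' n ≤ C * (W n + 1)) (n : ℕ) :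
    theS lam W' g n ≤ (C + 1) * theS lam W g n := by
  have h1 : (0 : ℝ) ≤ Real.logb 2 ((n : ℝ) + 2) := by
    apply Real.logb_nonneg (by norm_num)
    have : (0 : ℝ) ≤ n := Nat.cast_nonneg n
    linarith
  have h2 : (0 : ℝ) ≤ (lam n : ℝ) + g n := by positivity
  have h3 : (0 : ℝ) ≤ Real.logb 2 ((lam n : ℝ) + g n + 2) :=
    Real.logb_nonneg (by norm_num) (by linarith)
  have h4 : Real.sqrt ((lam n : ℝ) + g n) ≤ (lam n : ℝ) + g n := by
    have := sqrt_nat_le (lam n + g n)
    push_cast at this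
    exact this
  have h5 : (W' n : ℝ) ≤ C * ((W n : ℝ) + 1) := by exact_mod_cast h n
  have h6 := Real.sqrt_nonneg ((lam n : ℝ) + g n)
  have h7 : (0 : ℝ) ≤ C := Nat.cast_nonneg C
  have h8 : (0 : ℝ) ≤ W n := Nat.cast_nonneg _
  have h9 : Real.sqrt ((lam n : ℝ) + g n) * W' n ≤
      C * (Real.sqrt ((lam n : ℝ) + g n) * W n) + C * ((lam n : ℝ) + g n) := by
    calc Real.sqrt ((lam n : ℝ) + g n) * W' n
        ≤ Real.sqrt ((lam n : ℝ) + g n) * (C * ((W n : ℝ) + 1)) :=
          mul_le_mul_of_nonneg_left h5 h6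
      _ = C * (Real.sqrt ((lam n : ℝ) + g n) * W n) + C * Real.sqrt ((lam n : ℝ) + g n) := by
          ring
      _ ≤ _ := by
          have := mul_le_mul_of_nonneg_left h4 h7
          linarith
  unfold theS
  have h10 : ((lam n : ℝ) + g n + Real.sqrt ((lam n : ℝ) + g n) * W' n) ≤
      (C + 1) * ((lam n : ℝ) + g n + Real.sqrt ((lam n : ℝ) + g n) * W n) := by
    have : 0 ≤ Real.sqrt ((lam n : ℝ) + g n) * W n := mul_nonneg h6 h8
    nlinarith
  have h11 := mul_le_mul_of_nonneg_right h10 h3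
  nlinarith [mul_nonneg h7 h1]

/-- MACHINES WITH LITTLE MEMORY DEPENDING ON THE RANDOM BITS. -/
theorem machine_par (hV : ModV) (hL : ModL) (hN : ModN) (hK2 : ModK2) (hK3 : ModK3)
    {lam W g : ℕ → ℕ} {c1 : ℕ} (P1 : Par lam W W g c1) {a b : ℕ} (hb : 0 < b) {M : RTM} {c : ℕ}
    (hM : M.Bounded (fun n => (n + 2) ^ c) (fun n => c * Nat.log 2 (n + 2)))
    {Dt : Finset (Fin M.tapes)} (hC : M.Carries Dt W)
    (hcoin : ∀ (x : List Bool) (v : Bool),
      M.probAt x v ((x.length + 2) ^ c) (2 ^ lam x.length + 1) M.init = 0) :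
    ∃ (A : Set (List Bool)) (D : RTM) (e : ℝ),
      D.Decides A (fun n => (2 : ℝ) ^ (e * theS lam W g n)) (fun n => e * theS lam W g n) ∧
      ∀ x : List Bool,
        ((a : ℚ) / b + 1 / 2 ^ g x.length ≤ M.probAt x true ((x.length + 2) ^ c) 0 M.init →
          x ∈ A) ∧
        (M.probAt x true ((x.length + 2) ^ c) 0 M.init ≤ (a : ℚ) / b - 1 / 2 ^ g x.length →
          x ∉ A) := by
  -- the parameters
  have hmW : LF (fun x _ => mW M W x.length : Fn 0) :=
    ((((LF.const _).mul P1.hW.succ).mul (LF.const _)).add (LF.const 2))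
  set c2 : ℕ := mE M * (c1 + 1) * M.nd + 2 with hc2
  have hmWc : ∀ n, mW M W n ≤ c2 * Nat.log 2 (n + 2) := by
    intro n
    have h1 : 1 ≤ Nat.log 2 (n + 2) := Nat.log_pos (by norm_num) (by omega)
    have h2 := mul_log_le (a := mE M) (P1.Wc n)
    unfold mW
    calc mE M * (W n + 1) * M.nd + 2 ≤ mE M * (c1 + 1) * Nat.log 2 (n + 2) * M.nd +
          2 * Nat.log 2 (n + 2) := Nat.add_le_add (Nat.mul_le_mul_right _ h2) (by omega)
      _ = c2 * Nat.log 2 (n + 2) := by rw [hc2]; ring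
  have P : Par lam (mW M W) (fun _ => 1) g (c1 + c2 + 1) := by
    refine ⟨P1.hlam, hmW, LF.const 1, P1.hg, fun n => (P1.lamc n).trans ?_,
      fun n => (hmWc n).trans ?_, fun n => ?_, fun n => (P1.gc n).trans ?_⟩
    · exact Nat.mul_le_mul_right _ (by omega)
    · exact Nat.mul_le_mul_right _ (by omega)
    · have h1 : 1 ≤ Nat.log 2 (n + 2) := Nat.log_pos (by norm_num) (by omega)
      calc 1 = 1 * 1 := rfl
        _ ≤ (c1 + c2 + 1) * Nat.log 2 (n + 2) := Nat.mul_le_mul (by omega) h1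
    · exact Nat.mul_le_mul_right _ (by omega)
  have hE : LF (fun x a => EM (nxM M c Dt W x) (a 0) (a 1) (a 2) : Fn 3) := lf_EM P1.hW P1.Wc
  have hu : LF (fun x _ => smM M c Dt W x (M.startN x (Sel.sW M c x) (Sel.sT c x)) : Fn 0) :=
    lf_smM P1.hW P1.Wc ((CT.lfx_start M c).lf 0)
  have hΦ : LFP (fun x w => 2 * (2 * (a * 2 ^ g x.length / b) + 1) < w 0 :
      List Bool → (Fin 1 → ℕ) → Prop) :=
    LFP.lt ((LF.const 2).mul ((LF.const 2).mul (((LF.const a).mul
      (lf_x (lf_twoPow P1.hg P1.gc) 1)).div (LF.const b))).succ) (LF.proj 0)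
  obtain ⟨D, e, hD⟩ := gen_pred hL hN P P1.hg P1.gc (E := fun x => EM (nxM M c Dt W x)) hE
    (u := fun x => smM M c Dt W x (M.startN x (Sel.sW M c x) (Sel.sT c x)))
    (v := fun _ => 0) hu (LF.const 0)
    (Φ := fun x w => 2 * (2 * (a * 2 ^ g x.length / b) + 1) < w) hΦ
  -- the size
  set C : ℕ := mE M * M.nd + 2 with hCdef
  have hS : ∀ n, theS lam (mW M W) g n ≤ ((C : ℝ) + 1) * theS lam W g n := by
    refine theS_le (fun n => ?_)
    unfold mW
    calc mE M * (W n + 1) * M.nd + 2 = mE M * M.nd * (W n + 1) + 2 * 1 := by ring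
      _ ≤ mE M * M.nd * (W n + 1) + 2 * (W n + 1) :=
          Nat.add_le_add_left (Nat.mul_le_mul_left _ (by omega)) _
      _ = C * (W n + 1) := by rw [hCdef]; ring
  have he : ∀ n, e * theS lam (mW M W) g n ≤ |e| * ((C : ℝ) + 1) * theS lam W g n := by
    intro n
    have h1 := one_le_theS lam (mW M W) g n
    calc e * theS lam (mW M W) g n ≤ |e| * theS lam (mW M W) g n :=
          mul_le_mul_of_nonneg_right (le_abs_self e) (by linarith)
      _ ≤ |e| * (((C : ℝ) + 1) * theS lam W g n) :=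
          mul_le_mul_of_nonneg_left (hS n) (abs_nonneg e)
      _ = _ := by ring
  refine ⟨_, D, |e| * ((C : ℝ) + 1), decides_mono' hD (fun n => ?_) he, fun x => ?_⟩
  · exact Real.rpow_le_rpow_of_exponent_le (by norm_num) (he n)
  have hsub : SubG (EM (nxM M c Dt W x)) (lam x.length) (mW M W x.length) 1 :=
    subG_EM _ _ _
  have hu0 : smM M c Dt W x (M.startN x (Sel.sW M c x) (Sel.sT c x)) <
      2 ^ mW M W x.length := smM_lt hM hC x .start
  have h1 := valG_near hV hN hK2 hK3 (g := g x.length) (r := g x.length)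
    (M := theM (lam x.length) (mW M W x.length) (g x.length)) hsub (Nat.le_add_right _ _)
    (hN.1 _ _ _).2.2.2.2.2.1 hu0 (Nat.two_pow_pos _)
  rw [prodM_eq_prob hM hC x (fun v => hcoin x v)] at h1
  have h2 := thr_of_near (c := a * 2 ^ g x.length / b) h1
  have hb' : (0 : ℚ) < b := Nat.cast_pos.2 hb
  have h2g : (0 : ℚ) < 2 ^ g x.length := by positivity
  have h3 : ((a * 2 ^ g x.length / b : ℕ) : ℚ) * b ≤ a * 2 ^ g x.length := by
    exact_mod_cast Nat.div_mul_le_self (a * 2 ^ g x.length) b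
  have h4 : (a : ℚ) * 2 ^ g x.length < ((a * 2 ^ g x.length / b : ℕ) : ℚ) * b + b := by
    exact_mod_cast Nat.lt_div_mul_add (a := a * 2 ^ g x.length) hb
  have h5 : ((a * 2 ^ g x.length / b : ℕ) : ℚ) / 2 ^ g x.length ≤ (a : ℚ) / b := by
    rw [div_le_div_iff₀ h2g hb']
    exact h3
  have h6 : (a : ℚ) / b ≤ (((a * 2 ^ g x.length / b : ℕ) : ℚ) + 1) / 2 ^ g x.length := by
    rw [div_le_div_iff₀ hb' h2g]
    linarith
  refine ⟨fun h => h2.1 (le_trans ?_ h), fun h => h2.2 (h.trans ?_)⟩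
  · rw [add_div]
    linarith
  · rw [sub_le_iff_le_add, ← add_div]
    exact h6

/-- MACHINES WITH LITTLE MEMORY DEPENDING ON THE RANDOM BITS. -/
theorem machine_thr (hV : ModV) (hL : ModL) (hN : ModN) (hK2 : ModK2) (hK3 : ModK3)
    {lam W g : ℕ → ℕ} (hlam : LogConstructible lam) (hW : LogConstructible W)
    (hg : LogConstructible g) {a b : ℕ} (hb : 0 < b) {M : RTM} {c : ℕ}
    (hM : M.Bounded (fun n => (n + 2) ^ c) (fun n => c * Nat.log 2 (n + 2)))
    {Dt : Finset (Fin M.tapes)} (hC : M.Carries Dt W)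
    (hcoin : ∀ (x : List Bool) (v : Bool),
      M.probAt x v ((x.length + 2) ^ c) (2 ^ lam x.length + 1) M.init = 0) :
    ∃ (A : Set (List Bool)) (D : RTM) (e : ℝ),
      D.Decides A (fun n => (2 : ℝ) ^ (e * theS lam W g n)) (fun n => e * theS lam W g n) ∧
      ∀ x : List Bool,
        ((a : ℚ) / b + 1 / 2 ^ g x.length ≤ M.probAt x true ((x.length + 2) ^ c) 0 M.init →
          x ∈ A) ∧
        (M.probAt x true ((x.length + 2) ^ c) 0 M.init ≤ (a : ℚ) / b - 1 / 2 ^ g x.length →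
          x ∉ A) := by
  obtain ⟨c1, P1⟩ := exists_par hlam hW hW hg
  exact machine_par hV hL hN hK2 hK3 P1 hb hM hC hcoin

end Vale.Agent.P313.MW
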