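import Vale.Agent.P313.H638.G6

/-!
`BPL` for machines which carry `O(sqrt (log n))` cells depending on the random bits: space
`O(log n * loglog n)`.
-/

namespace Vale.Agent.P313.MW

open Finset

theorem natLog_le_logb (m : ℕ) (hm : 0 < m) : (Nat.log 2 m : ℝ) ≤ Real.logb 2 m := by
  rw [Real.le_logb_iff_rpow_le (by norm_num) (by exact_mod_cast hm), Real.rpow_natCast]
  exact_mod_cast Nat.pow_log_le_self 2 (by omega)

theorem one_le_logb (n : ℕ) : 1 ≤ Real.logb 2 ((n : ℝ) + 2) := by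
  rw [Real.le_logb_iff_rpow_le (by norm_num) (by positivity)]
  simp

theorem one_le_logb2 {L : ℝ} (h : 1 ≤ L) : 1 ≤ Real.logb 2 (L + 1) := by
  rw [Real.le_logb_iff_rpow_le (by norm_num) (by linarith)]
  rw [Real.rpow_one]
  linarith

/-- The size of the space bound. -/
theorem theS_small (c k : ℕ) : ∃ C : ℝ, ∀ n : ℕ,
    theS (fun n => c * (Nat.log 2 (n + 2) + 1)) (fun n => k * Nat.sqrt (Nat.log 2 (n + 2)))
      (fun _ => 3) n ≤
      C * (Real.logb 2 (n + 2) * Real.logb 2 (Real.logb 2 (n + 2) + 1)) := by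
  set d : ℝ := 2 * c + 3 with hd
  set q : ℝ := Real.logb 2 (d + 2) + 1 with hq
  refine ⟨1 + (d + k * d) * q, fun n => ?_⟩
  set L : ℝ := Real.logb 2 ((n : ℝ) + 2) with hL
  have hL1 : 1 ≤ L := one_le_logb n
  set l : ℝ := Real.logb 2 (L + 1) with hl
  have hl1 : 1 ≤ l := one_le_logb2 hL1
  have hc0 : (0 : ℝ) ≤ c := Nat.cast_nonneg c
  have hk0 : (0 : ℝ) ≤ k := Nat.cast_nonneg k
  have hd3 : 3 ≤ d := by rw [hd]; linarith
  have hlog : (Nat.log 2 (n + 2) : ℝ) ≤ L := by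
    have := natLog_le_logb (n + 2) (by omega)
    push_cast at this
    exact this
  have hlog0 : (0 : ℝ) ≤ (Nat.log 2 (n + 2) : ℝ) := Nat.cast_nonneg _
  -- the number of bits of the number of steps
  have h1 : ((c * (Nat.log 2 (n + 2) + 1) : ℕ) : ℝ) + ((3 : ℕ) : ℝ) ≤ d * L := by
    push_cast
    rw [hd]
    nlinarith
  have h10 : (0 : ℝ) ≤ ((c * (Nat.log 2 (n + 2) + 1) : ℕ) : ℝ) + ((3 : ℕ) : ℝ) := by positivity
  -- the memory
  have h2 : ((k * Nat.sqrt (Nat.log 2 (n + 2)) : ℕ) : ℝ) ≤ k * Real.sqrt L := by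
    push_cast
    refine mul_le_mul_of_nonneg_left ?_ hk0
    calc (Nat.sqrt (Nat.log 2 (n + 2)) : ℝ) ≤ Real.sqrt (Nat.log 2 (n + 2) : ℝ) :=
          Real.nat_sqrt_le_real_sqrt
      _ ≤ Real.sqrt L := Real.sqrt_le_sqrt hlog
  have h20 : (0 : ℝ) ≤ ((k * Nat.sqrt (Nat.log 2 (n + 2)) : ℕ) : ℝ) := Nat.cast_nonneg _
  have h3 : Real.sqrt (((c * (Nat.log 2 (n + 2) + 1) : ℕ) : ℝ) + ((3 : ℕ) : ℝ)) *
      ((k * Nat.sqrt (Nat.log 2 (n + 2)) : ℕ) : ℝ) ≤ k * d * L := by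
    calc Real.sqrt (((c * (Nat.log 2 (n + 2) + 1) : ℕ) : ℝ) + ((3 : ℕ) : ℝ)) *
        ((k * Nat.sqrt (Nat.log 2 (n + 2)) : ℕ) : ℝ)
        ≤ Real.sqrt (d * L) * (k * Real.sqrt L) :=
          mul_le_mul (Real.sqrt_le_sqrt h1) h2 h20 (Real.sqrt_nonneg _)
      _ = k * Real.sqrt d * (Real.sqrt L * Real.sqrt L) := by
          rw [Real.sqrt_mul (by linarith)]; ring
      _ = k * Real.sqrt d * L := by rw [Real.mul_self_sqrt (by linarith)]
      _ ≤ k * d * L := by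
          refine mul_le_mul_of_nonneg_right (mul_le_mul_of_nonneg_left ?_ hk0) (by linarith)
          rw [Real.sqrt_le_left (by linarith)]
          nlinarith
  have h4 : Real.logb 2 (((c * (Nat.log 2 (n + 2) + 1) : ℕ) : ℝ) + ((3 : ℕ) : ℝ) + 2) ≤ q * l := by
    have h5 : Real.logb 2 (((c * (Nat.log 2 (n + 2) + 1) : ℕ) : ℝ) + ((3 : ℕ) : ℝ) + 2) ≤
        Real.logb 2 ((d + 2) * L) :=
      Real.logb_le_logb_of_le (by norm_num) (by linarith) (by nlinarith)
    have h6 : Real.logb 2 ((d + 2) * L) = Real.logb 2 (d + 2) + Real.logb 2 L :=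
      Real.logb_mul (by linarith) (by linarith)
    have h7 : Real.logb 2 L ≤ l := Real.logb_le_logb_of_le (by norm_num) (by linarith) (by linarith)
    have h8 : 0 ≤ Real.logb 2 (d + 2) := Real.logb_nonneg (by norm_num) (by linarith)
    rw [hq]
    nlinarith
  have h40 : 0 ≤ Real.logb 2 (((c * (Nat.log 2 (n + 2) + 1) : ℕ) : ℝ) + ((3 : ℕ) : ℝ) + 2) :=
    Real.logb_nonneg (by norm_num) (by linarith)
  have h9 : (((c * (Nat.log 2 (n + 2) + 1) : ℕ) : ℝ) + ((3 : ℕ) : ℝ) +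
      Real.sqrt (((c * (Nat.log 2 (n + 2) + 1) : ℕ) : ℝ) + ((3 : ℕ) : ℝ)) *
      ((k * Nat.sqrt (Nat.log 2 (n + 2)) : ℕ) : ℝ)) *
      Real.logb 2 (((c * (Nat.log 2 (n + 2) + 1) : ℕ) : ℝ) + ((3 : ℕ) : ℝ) + 2) ≤
      ((d + k * d) * L) * (q * l) := by
    refine mul_le_mul (by linarith) h4 h40 ?_
    have : 0 ≤ d + k * d := by nlinarith
    nlinarith
  unfold theS
  have h11 : L * 1 ≤ L * l := mul_le_mul_of_nonneg_left hl1 (by linarith)
  calc L + _ ≤ L * l + ((d + k * d) * L) * (q * l) := add_le_add (by linarith) h9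
    _ = (1 + (d + k * d) * q) * (L * l) := by ring

/-- `BPL` FOR MACHINES WITH LITTLE MEMORY DEPENDING ON THE RANDOM BITS. -/
theorem bpl_small (hV : ModV) (hL : ModL) (hN : ModN) (hK2 : ModK2) (hK3 : ModK3)
    {A : Set (List Bool)} {M : RTM} {c k : ℕ}
    (hM : M.Bounded (fun n => (n + 2) ^ c) (fun n => c * Nat.log 2 (n + 2)))
    {Dt : Finset (Fin M.tapes)} (hC : M.Carries Dt (fun n => k * Nat.sqrt (Nat.log 2 (n + 2))))
    (hA : ∀ x : List Bool,
      (x ∈ A → 2 / 3 ≤ M.probAt x true ((x.length + 2) ^ c) 0 M.init) ∧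
      (x ∉ A → M.probAt x true ((x.length + 2) ^ c) 0 M.init ≤ 1 / 3)) :
    ∃ (D : RTM) (e : ℝ), D.Decides A
      (fun n => (2 : ℝ) ^ (e * (Real.logb 2 (n + 2) * Real.logb 2 (Real.logb 2 (n + 2) + 1))))
      (fun n => e * (Real.logb 2 (n + 2) * Real.logb 2 (Real.logb 2 (n + 2) + 1))) := by
  have hlog : LF (fun x _ => Nat.log 2 (x.length + 2) : Fn 0) := (LF.len.add (LF.const 2)).log2
  have P : Par (fun n => c * (Nat.log 2 (n + 2) + 1)) (fun n => k * Nat.sqrt (Nat.log 2 (n + 2)))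
      (fun n => k * Nat.sqrt (Nat.log 2 (n + 2))) (fun _ => 3) (2 * c + k + 3) := by
    have hs : ∀ n, k * Nat.sqrt (Nat.log 2 (n + 2)) ≤ (2 * c + k + 3) * Nat.log 2 (n + 2) :=
      fun n => Nat.mul_le_mul (by omega) (Nat.sqrt_le_self _)
    refine ⟨(LF.const c).mul hlog.succ, (LF.const k).mul (H146.lf_sqrt hlog),
      (LF.const k).mul (H146.lf_sqrt hlog), LF.const 3, fun n => ?_, hs, hs, fun n => ?_⟩
    · have h1 : 1 ≤ Nat.log 2 (n + 2) := Nat.log_pos (by norm_num) (by omega)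
      nlinarith
    · have h1 : 1 ≤ Nat.log 2 (n + 2) := Nat.log_pos (by norm_num) (by omega)
      nlinarith
  obtain ⟨A', D, e, hD, hx⟩ := machine_par hV hL hN hK2 hK3 P (a := 1) (b := 2) (by norm_num) hM hC
    (fun x v => by
      refine Sel.probAt_zero_of_lt x v _ _ _ ?_
      refine Nat.lt_succ_of_le ?_
      rw [pow_mul']
      exact Nat.pow_le_pow_left (Nat.lt_pow_succ_log_self (by norm_num) _).le c)
  obtain ⟨C, hCn⟩ := theS_small c k
  have e1 : A = A' := by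
    ext x
    constructor
    · intro h
      refine (hx x).1 (le_trans ?_ ((hA x).1 h))
      norm_num
    · intro h
      by_contra h2
      refine (hx x).2 (le_trans ((hA x).2 h2) ?_) h
      norm_num
  have he : ∀ n, e * theS (fun n => c * (Nat.log 2 (n + 2) + 1))
      (fun n => k * Nat.sqrt (Nat.log 2 (n + 2))) (fun _ => 3) n ≤
      |e| * C * (Real.logb 2 (n + 2) * Real.logb 2 (Real.logb 2 (n + 2) + 1)) := by
    intro n
    have h1 := one_le_theS (fun n => c * (Nat.log 2 (n + 2) + 1))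
      (fun n => k * Nat.sqrt (Nat.log 2 (n + 2))) (fun _ => 3) n
    calc e * _ ≤ |e| * _ := mul_le_mul_of_nonneg_right (le_abs_self e) (by linarith)
      _ ≤ |e| * (C * (Real.logb 2 (n + 2) * Real.logb 2 (Real.logb 2 (n + 2) + 1))) :=
          mul_le_mul_of_nonneg_left (hCn n) (abs_nonneg e)
      _ = _ := by ring
  rw [e1]
  exact ⟨D, |e| * C, decides_mono' hD
    (fun n => Real.rpow_le_rpow_of_exponent_le (by norm_num) (he n)) he⟩

end Vale.Agent.P313.MW
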