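import Vale.Agent.P313.H463.MW.KStmt

/-!
Module K2 of the medium width theorem: soundness of all stages.
-/

namespace Vale.Agent.P313.MW.H638

open Finset

/-! ### Products -/

theorem prq_add {N : ℕ} (m : ℕ → ℕ → ℕ → ℚ) (i a b u v : ℕ) (hv : v < N) :
    prq N m i (a + b) u v = ∑ w ∈ range N, prq N m i a u w * prq N m (i + a) b w v := by
  induction b generalizing v with
  | zero =>
    rw [add_zero]
    have h1 : ∀ w ∈ range N, prq N m i a u w * prq N m (i + a) 0 w v =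
        if w = v then prq N m i a u v else 0 := by
      intro w _
      show prq N m i a u w * (if w = v then 1 else 0) = _
      split_ifs with h
      · rw [h, mul_one]
      · rw [mul_zero]
    rw [sum_congr rfl h1, sum_ite_eq', if_pos (mem_range.2 hv)]
  | succ b ih =>
    rw [← add_assoc]
    show ∑ s ∈ range N, prq N m i (a + b) u s * m (i + (a + b)) s v =
      ∑ w ∈ range N, prq N m i a u w *
        ∑ s ∈ range N, prq N m (i + a) b w s * m (i + a + b) s v
    have h1 : ∀ s ∈ range N, prq N m i (a + b) u s * m (i + (a + b)) s v =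
        ∑ w ∈ range N, prq N m i a u w * (prq N m (i + a) b w s * m (i + a + b) s v) := by
      intro s hs
      rw [ih s (mem_range.1 hs), sum_mul, add_assoc i a b]
      exact sum_congr rfl fun w _ => by ring
    rw [sum_congr rfl h1, sum_comm]
    exact sum_congr rfl fun w _ => by rw [mul_sum]

/-- Products of the products of blocks. -/
theorem prq_mul {N : ℕ} (m : ℕ → ℕ → ℕ → ℚ) (i L t u v : ℕ) (hv : v < N) :
    prq N (fun p => prq N m (i + p * L) L) 0 t u v = prq N m i (t * L) u v := by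
  induction t generalizing v with
  | zero => simp [prq]
  | succ t ih =>
    rw [Nat.succ_mul, prq_add m i (t * L) L u v hv]
    show ∑ s ∈ range N, prq N (fun p => prq N m (i + p * L) L) 0 t u s *
      prq N m (i + (0 + t) * L) L s v = _
    rw [zero_add]
    exact sum_congr rfl fun s hs => by rw [ih s (mem_range.1 hs)]

theorem prq_congr {N : ℕ} {m m' : ℕ → ℕ → ℕ → ℚ} {i t : ℕ}
    (h : ∀ p, i ≤ p → p < i + t → ∀ s < N, ∀ v < N, m p s v = m' p s v) (u v : ℕ) (hv : v < N) :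
    prq N m i t u v = prq N m' i t u v := by
  induction t generalizing v with
  | zero => rfl
  | succ t ih =>
    show ∑ s ∈ range N, prq N m i t u s * m (i + t) s v =
      ∑ s ∈ range N, prq N m' i t u s * m' (i + t) s v
    refine sum_congr rfl fun s hs => ?_
    have hs' := mem_range.1 hs
    rw [ih (fun p h1 h2 => h p h1 (by omega)) s hs', h (i + t) (by omega) (by omega) s hs' v hv]

theorem prq_nonneg {N m' : ℕ} {M : ℕ → ℕ → ℕ → ℚ} (hM : Stoch N m' M) {i t : ℕ} (hit : i + t ≤ m')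
    {u v : ℕ} (hv : v < N) : 0 ≤ prq N M i t u v := by
  induction t generalizing v with
  | zero =>
    show (0 : ℚ) ≤ if u = v then 1 else 0
    split_ifs <;> norm_num
  | succ t ih =>
    refine sum_nonneg fun s hs => mul_nonneg (ih (by omega) (mem_range.1 hs)) ?_
    exact (hM (i + t) (by omega) s (mem_range.1 hs)).1 v hv

theorem prq_sum {N m' : ℕ} {M : ℕ → ℕ → ℕ → ℚ} (hM : Stoch N m' M) {i t : ℕ} (hit : i + t ≤ m')
    {u : ℕ} (hu : u < N) : ∑ v ∈ range N, prq N M i t u v = 1 := by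
  induction t with
  | zero =>
    show ∑ v ∈ range N, (if u = v then (1 : ℚ) else 0) = 1
    rw [sum_ite_eq, if_pos (mem_range.2 hu)]
  | succ t ih =>
    show ∑ v ∈ range N, ∑ s ∈ range N, prq N M i t u s * M (i + t) s v = 1
    rw [sum_comm, ← ih (by omega)]
    refine sum_congr rfl fun s hs => ?_
    rw [← mul_sum, (hM (i + t) (by omega) s (mem_range.1 hs)).2, mul_one]

theorem stoch_prq {N m' : ℕ} {M : ℕ → ℕ → ℕ → ℚ} (hM : Stoch N m' M) {i L n : ℕ}
    (h : i + n * L ≤ m') : Stoch N n (fun p => prq N M (i + p * L) L) := by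
  intro p hp u hu
  have h1 : i + p * L + L ≤ m' := by
    have : (p + 1) * L ≤ n * L := Nat.mul_le_mul_right L hp
    rw [Nat.succ_mul] at this
    omega
  exact ⟨fun v hv => prq_nonneg hM h1 hv, prq_sum hM h1 hu⟩

/-- Perturbation of products. -/
theorem pert {N n : ℕ} {A B : ℕ → ℕ → ℕ → ℚ} (hB : Stoch N n B) {r : ℚ} (hr : 0 ≤ r)
    (hn : 2 * n * r ≤ 1)
    (h : ∀ p < n, ∀ u < N, ∑ v ∈ range N, |A p u v - B p u v| ≤ r) {t : ℕ} (ht : t ≤ n) {u : ℕ}
    (hu : u < N) :
    ∑ v ∈ range N, |prq N A 0 t u v - prq N B 0 t u v| ≤ 2 * t * r := by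
  induction t with
  | zero => simp [prq]
  | succ t ih =>
    have ih' := ih (by omega)
    have htn : t < n := by omega
    have hrow : ∀ s < N, ∑ v ∈ range N, |A t s v| ≤ 1 + r := by
      intro s hs
      calc ∑ v ∈ range N, |A t s v| ≤ ∑ v ∈ range N, (B t s v + |A t s v - B t s v|) := by
            refine sum_le_sum fun v hv => ?_
            have h0 := (hB t htn s hs).1 v (mem_range.1 hv)
            have h1 : A t s v = B t s v + (A t s v - B t s v) := by ring
            calc |A t s v| = |B t s v + (A t s v - B t s v)| := by rw [← h1]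
              _ ≤ |B t s v| + |A t s v - B t s v| := abs_add_le _ _
              _ = B t s v + |A t s v - B t s v| := by rw [abs_of_nonneg h0]
        _ = (∑ v ∈ range N, B t s v) + ∑ v ∈ range N, |A t s v - B t s v| := sum_add_distrib
        _ ≤ 1 + r := by rw [(hB t htn s hs).2]; exact add_le_add le_rfl (h t htn s hs)
    have hstep : ∀ v ∈ range N, |prq N A 0 (t + 1) u v - prq N B 0 (t + 1) u v| ≤
        ∑ s ∈ range N, (|prq N A 0 t u s - prq N B 0 t u s| * |A t s v| +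
          prq N B 0 t u s * |A t s v - B t s v|) := by
      intro v _
      have h1 : prq N A 0 (t + 1) u v - prq N B 0 (t + 1) u v =
          ∑ s ∈ range N, ((prq N A 0 t u s - prq N B 0 t u s) * A t s v +
            prq N B 0 t u s * (A t s v - B t s v)) := by
        show (∑ s ∈ range N, prq N A 0 t u s * A (0 + t) s v) -
          (∑ s ∈ range N, prq N B 0 t u s * B (0 + t) s v) = _
        rw [← sum_sub_distrib, zero_add]
        exact sum_congr rfl fun s _ => by ring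
      rw [h1]
      refine (abs_sum_le_sum_abs _ _).trans (sum_le_sum fun s hs => ?_)
      refine (abs_add_le _ _).trans ?_
      rw [abs_mul, abs_mul, abs_of_nonneg (prq_nonneg hB (by omega) (mem_range.1 hs))]
    calc ∑ v ∈ range N, |prq N A 0 (t + 1) u v - prq N B 0 (t + 1) u v|
        ≤ ∑ v ∈ range N, ∑ s ∈ range N, (|prq N A 0 t u s - prq N B 0 t u s| * |A t s v| +
          prq N B 0 t u s * |A t s v - B t s v|) := sum_le_sum hstep
      _ = ∑ s ∈ range N, (|prq N A 0 t u s - prq N B 0 t u s| * ∑ v ∈ range N, |A t s v| +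
          prq N B 0 t u s * ∑ v ∈ range N, |A t s v - B t s v|) := by
          rw [sum_comm]
          exact sum_congr rfl fun s _ => by rw [sum_add_distrib, mul_sum, mul_sum]
      _ ≤ ∑ s ∈ range N, (|prq N A 0 t u s - prq N B 0 t u s| * (1 + r) +
          prq N B 0 t u s * r) := by
          refine sum_le_sum fun s hs => ?_
          have hs' := mem_range.1 hs
          exact add_le_add (mul_le_mul_of_nonneg_left (hrow s hs') (abs_nonneg _))
            (mul_le_mul_of_nonneg_left (h t htn s hs') (prq_nonneg hB (by omega) hs'))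
      _ = (∑ s ∈ range N, |prq N A 0 t u s - prq N B 0 t u s|) * (1 + r) + r := by
          rw [sum_add_distrib, ← sum_mul, ← sum_mul, prq_sum hB (by omega) hu, one_mul]
      _ ≤ 2 * t * r * (1 + r) + r := by
          have : (0 : ℚ) ≤ 1 + r := by linarith
          have := mul_le_mul_of_nonneg_right ih' this
          linarith
      _ ≤ 2 * ((t + 1 : ℕ) : ℚ) * r := by
          have htn' : (t : ℚ) ≤ n := by exact_mod_cast htn.le
          have h2 : 2 * (t : ℚ) * r ≤ 1 := by nlinarith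
          push_cast
          nlinarith [mul_le_mul_of_nonneg_right h2 hr]

/-! ### Numbers -/

section
variable {π : Prm} {h : ℕ} (H : π.Num h)
include H

theorem Q_ge : 2 ^ (6 * h) ≤ π.Q :=
  (Nat.pow_le_pow_right (by norm_num) (by omega)).trans H.Q1

theorem Q_four : 4 ≤ π.Q := by
  have h1 := H.Q1
  have h2 : 2 ^ 2 ≤ 2 ^ (40 * h) := Nat.pow_le_pow_right (by norm_num) (by have := H.h10; omega)
  omega

theorem Q_pos : (0 : ℚ) < π.Q := by
  have := Q_four H
  exact_mod_cast (by omega : 0 < π.Q)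

theorem QJ_ge : 2 ^ (40 * h * (π.s + 1)) ≤ π.Q ^ π.J := by
  rw [H.J, pow_mul]
  exact Nat.pow_le_pow_left H.Q1 _

theorem QJ_le : π.Q ^ π.J ≤ 2 ^ ((40 * h + 1) * (π.s + 1)) := by
  rw [H.J, pow_mul]
  exact Nat.pow_le_pow_left H.Q2 _

/-- The errors of the stages stay small. -/
theorem small {k : ℕ} (hk : k ≤ π.s) :
    2 * (π.n : ℚ) * (2 * (4 * (π.n : ℚ)) ^ k * π.N / (π.Q : ℚ) ^ π.J) ≤ 1 := by
  have hQ : (0 : ℚ) < (π.Q : ℚ) ^ π.J := pow_pos (Q_pos H) _
  rw [← mul_div_assoc, div_le_one hQ]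
  have h1 : 2 * π.n * (2 * (4 * π.n) ^ k * π.N) ≤ π.Q ^ π.J := by
    have e1 : 4 * π.n = 2 ^ (π.s + 2) := by
      show 4 * 2 ^ π.s = _
      rw [pow_add]; ring
    have e2 : 2 * π.n = 2 ^ (π.s + 1) := by
      show 2 * 2 ^ π.s = _
      rw [pow_succ]; ring
    rw [e1, e2]
    have h2 : 2 ^ (π.s + 1) * (2 * (2 ^ (π.s + 2)) ^ k * π.N) ≤
        2 ^ (π.s + 1) * (2 * (2 ^ (π.s + 2)) ^ k * 2 ^ h) :=
      Nat.mul_le_mul_left _ (Nat.mul_le_mul_left _ H.Nh)
    have h3 : 2 ^ (π.s + 1) * (2 * (2 ^ (π.s + 2)) ^ k * 2 ^ h) =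
        2 ^ (π.s + 1 + (1 + (π.s + 2) * k + h)) := by
      rw [← pow_mul]; ring
    have h4 : π.s + 1 + (1 + (π.s + 2) * k + h) ≤ 40 * h * (π.s + 1) := by
      have a1 := H.h10
      have a2 := H.sh
      have a3 : (π.s + 2) * k ≤ (π.s + 2) * h := Nat.mul_le_mul_left _ (hk.trans a2)
      nlinarith
    calc _ ≤ _ := h2
      _ = _ := h3
      _ ≤ 2 ^ (40 * h * (π.s + 1)) := Nat.pow_le_pow_right (by norm_num) h4
      _ ≤ _ := QJ_ge H
  exact_mod_cast h1

/-- The error rate of the improvement. -/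
theorem delta_le :
    ((π.n : ℚ) + 1) * π.N * ((π.tau : ℚ) + 1) / π.Q ≤ 1 / 2 ^ (3 * h) := by
  have hQ := Q_pos H
  have h1 : ((π.tau : ℚ) + 1) ≤ 2 * π.Q / 2 ^ (6 * h) := by
    have a1 : (π.tau : ℚ) ≤ π.Q / 2 ^ (6 * h) := by
      rw [H.tau]
      have := @Nat.cast_div_le ℚ _ _ _ π.Q (2 ^ (6 * h))
      simpa using this
    have a2 : (1 : ℚ) ≤ π.Q / 2 ^ (6 * h) := by
      rw [one_le_div (by positivity)]
      exact_mod_cast Q_ge H
    calc (π.tau : ℚ) + 1 ≤ π.Q / 2 ^ (6 * h) + π.Q / 2 ^ (6 * h) := add_le_add a1 a2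
      _ = _ := by ring
  have h2 : ((π.n : ℚ) + 1) ≤ 2 * 2 ^ h := by
    have a1 : π.n ≤ 2 ^ h := Nat.pow_le_pow_right (by norm_num) H.sh
    have a2 : 1 ≤ 2 ^ h := Nat.one_le_two_pow
    exact_mod_cast (by omega : π.n + 1 ≤ 2 * 2 ^ h)
  have h3 : (π.N : ℚ) ≤ 2 ^ h := by exact_mod_cast H.Nh
  have h4 : (0 : ℚ) ≤ π.N := Nat.cast_nonneg _
  have h5 : (0 : ℚ) ≤ (π.tau : ℚ) + 1 := by positivity
  rw [div_le_iff₀ hQ]
  calc ((π.n : ℚ) + 1) * π.N * ((π.tau : ℚ) + 1)
      ≤ 2 * 2 ^ h * 2 ^ h * (2 * π.Q / 2 ^ (6 * h)) := by gcongr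
    _ = 2 ^ (2 * h + 2) * (1 / 2 ^ (6 * h)) * π.Q := by ring
    _ ≤ 1 / 2 ^ (3 * h) * π.Q := by
        refine mul_le_mul_of_nonneg_right ?_ hQ.le
        rw [← mul_div_assoc, mul_one, div_le_div_iff₀ (by positivity) (by positivity), one_mul,
          ← pow_add]
        exact pow_le_pow_right₀ (by norm_num) (by have := H.h10; omega)

theorem delta_pow : 2 * ((1 : ℚ) / 2 ^ (3 * h)) ^ 2 ^ π.D ≤ 1 / (π.Q : ℚ) ^ π.J := by
  have hQ : (0 : ℚ) < (π.Q : ℚ) ^ π.J := pow_pos (Q_pos H) _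
  have h1 : ((1 : ℚ) / 2 ^ (3 * h)) ^ 2 ^ π.D = 1 / 2 ^ (3 * h * 2 ^ π.D) := by
    rw [div_pow, one_pow, ← pow_mul]
  rw [h1, ← mul_div_assoc, mul_one, div_le_div_iff₀ (by positivity) hQ, one_mul]
  have h2 : 2 * π.Q ^ π.J ≤ 2 ^ (3 * h * 2 ^ π.D) := by
    calc 2 * π.Q ^ π.J ≤ 2 * 2 ^ ((40 * h + 1) * (π.s + 1)) := Nat.mul_le_mul_left _ (QJ_le H)
      _ = 2 ^ ((40 * h + 1) * (π.s + 1) + 1) := by rw [pow_succ]; ring
      _ ≤ 2 ^ (3 * h * 2 ^ π.D) := by
          refine Nat.pow_le_pow_right (by norm_num) ?_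
          have a1 : 3 * h * (16 * (π.s + 1)) ≤ 3 * h * 2 ^ π.D := Nat.mul_le_mul_left _ H.D
          have a2 := H.h10
          nlinarith
  exact_mod_cast h2

omit H in
theorem chs_pass {al be : ℕ → ℕ} {mm : ℕ → ℕ → ℕ → ℕ} (hf : π.found al be mm) :
    π.pass al be mm (π.chs al be mm) := by
  obtain ⟨C, hC, hp⟩ := hf
  have : (π.chs al be mm) ∈ {C | C < 2 ^ (2 * π.s) ∧ π.pass al be mm C} :=
    Nat.sInf_mem ⟨C, hC, hp⟩
  exact this.2

omit H in
theorem cnC_diag (al be : ℕ → ℕ) (mm : ℕ → ℕ → ℕ → ℕ) (C i u v : ℕ) :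
    π.cnC al be mm C i i u v = if u = v then π.Q else 0 := by
  unfold Prm.cnC cw
  rw [Nat.sub_self]
  simp only [wlk]
  split_ifs with h
  · simp [h]
  · simp [h]

end

/-- The row sum form. -/
theorem rows (hS : ModS) {π : Prm} {h : ℕ} {al be : ℕ → ℕ} {B0 : ℕ → ℕ → ℕ → ℕ}
    {M : ℕ → ℕ → ℕ → ℚ} {K : ℕ} (H : π.Num h) (hKs : K ≤ π.s) (hM : Stoch π.N (π.n ^ K) M)
    (h0 : ∀ A < π.n ^ K, ∀ u < π.N, ∀ v < π.N,
      |(B0 A u v : ℚ) / (π.Q : ℚ) ^ π.J - M A u v| ≤ 1 / (π.Q : ℚ) ^ π.J) (k : ℕ) (hk : k ≤ K)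
    (hf : ∀ k' < k, ∀ A < π.n ^ (K - k' - 1),
      π.found al be (fun p u v => π.stg al be B0 k' (A * π.n + p) u v)) :
    ∀ A < π.n ^ (K - k), ∀ u < π.N,
      ∑ v ∈ range π.N,
        |(π.stg al be B0 k A u v : ℚ) / (π.Q : ℚ) ^ π.J - prq π.N M (A * π.n ^ k) (π.n ^ k) u v| ≤
        2 * (4 * (π.n : ℚ)) ^ k * π.N / (π.Q : ℚ) ^ π.J := by
  have hQJ : (0 : ℚ) < (π.Q : ℚ) ^ π.J := pow_pos (Q_pos H) _
  have hn1 : (1 : ℚ) ≤ π.n := by
    have : 1 ≤ π.n := Nat.one_le_two_pow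
    exact_mod_cast this
  have hnpos : 0 < π.n := Nat.two_pow_pos _
  induction k with
  | zero =>
    intro A hA u hu
    rw [Nat.sub_zero] at hA
    have h1 : ∀ v ∈ range π.N,
        |(π.stg al be B0 0 A u v : ℚ) / (π.Q : ℚ) ^ π.J -
          prq π.N M (A * π.n ^ 0) (π.n ^ 0) u v| ≤ 1 / (π.Q : ℚ) ^ π.J := by
      intro v hv
      have e : prq π.N M (A * π.n ^ 0) (π.n ^ 0) u v = M A u v := by
        rw [pow_zero, mul_one]
        show ∑ s ∈ range π.N, (if u = s then (1 : ℚ) else 0) * M (A + 0) s v = _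
        rw [add_zero]
        have : ∀ s ∈ range π.N, (if u = s then (1 : ℚ) else 0) * M A s v =
            if u = s then M A s v else 0 := by
          intro s _
          split_ifs <;> simp
        rw [sum_congr rfl this, sum_ite_eq, if_pos (mem_range.2 hu)]
      rw [e]
      exact h0 A hA u hu v (mem_range.1 hv)
    calc _ ≤ ∑ v ∈ range π.N, 1 / (π.Q : ℚ) ^ π.J := sum_le_sum h1
      _ = π.N / (π.Q : ℚ) ^ π.J := by
          rw [sum_const, card_range, nsmul_eq_mul]; ring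
      _ ≤ _ := by
          rw [pow_zero, mul_one]
          refine div_le_div_of_nonneg_right ?_ hQJ.le
          have : (0 : ℚ) ≤ π.N := Nat.cast_nonneg _
          linarith
  | succ k ih =>
    intro A hA u hu
    have hkK : k < K := by omega
    have ihk := ih (by omega) (fun k' hk' => hf k' (by omega))
    set r : ℚ := 2 * (4 * (π.n : ℚ)) ^ k * π.N / (π.Q : ℚ) ^ π.J with hr
    have hr0 : 0 ≤ r := by positivity
    have hsm : 2 * (π.n : ℚ) * r ≤ 1 := small H (by omega)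
    have hAn : ∀ p < π.n, A * π.n + p < π.n ^ (K - k) := by
      intro p hp
      have e : K - k = K - (k + 1) + 1 := by omega
      rw [e, pow_succ]
      have : (A + 1) * π.n ≤ π.n ^ (K - (k + 1)) * π.n := Nat.mul_le_mul_right _ hA
      rw [Nat.succ_mul] at this
      omega
    -- the true matrices of the block
    set P : ℕ → ℕ → ℕ → ℚ := fun p => prq π.N M (A * π.n ^ (k + 1) + p * π.n ^ k) (π.n ^ k) with hP
    have hidx : ∀ p, (A * π.n + p) * π.n ^ k = A * π.n ^ (k + 1) + p * π.n ^ k := by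
      intro p
      rw [pow_succ]; ring
    have hPst : Stoch π.N π.n P := by
      refine stoch_prq hM ?_
      have e1 : A * π.n ^ (k + 1) + π.n * π.n ^ k = (A + 1) * π.n ^ (k + 1) := by
        rw [pow_succ]; ring
      rw [e1]
      calc (A + 1) * π.n ^ (k + 1) ≤ π.n ^ (K - (k + 1)) * π.n ^ (k + 1) :=
            Nat.mul_le_mul_right _ hA
        _ = π.n ^ K := by rw [← pow_add]; congr 1; omega
    set mm : ℕ → ℕ → ℕ → ℕ := fun p u v => π.stg al be B0 k (A * π.n + p) u v with hmm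
    have hrow : ∀ p < π.n, ∀ u < π.N,
        ∑ v ∈ range π.N, |(mm p u v : ℚ) / (π.Q : ℚ) ^ π.J - P p u v| ≤ r := by
      intro p hp u hu
      have := ihk (A * π.n + p) (hAn p hp) u hu
      rw [hidx p] at this
      exact this
    -- module S
    have hpass : okC π.N π.n π.Q π.J π.tau (π.cnC al be mm (π.chs al be mm)) mm := by
      have := chs_pass (hf k (by omega) A (by rw [Nat.sub_sub]; exact hA))
      exact this
    have hsum : ∀ p < π.n, ∀ u < π.N,
        (∑ v ∈ range π.N, (mm p u v : ℚ)) / (π.Q : ℚ) ^ π.J ≤ 1 + 1 / (2 * (π.n : ℚ)) := by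
      intro p hp u hu
      have h1 : ∑ v ∈ range π.N, (mm p u v : ℚ) / (π.Q : ℚ) ^ π.J ≤
          ∑ v ∈ range π.N, (P p u v + |(mm p u v : ℚ) / (π.Q : ℚ) ^ π.J - P p u v|) := by
        refine sum_le_sum fun v _ => ?_
        have := le_abs_self ((mm p u v : ℚ) / (π.Q : ℚ) ^ π.J - P p u v)
        linarith
      rw [sum_add_distrib, (hPst p hp u hu).2] at h1
      rw [sum_div]
      have h2 : r ≤ 1 / (2 * (π.n : ℚ)) := by
        rw [le_div_iff₀ (by linarith)]
        linarith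
      exact h1.trans (add_le_add le_rfl ((hrow p hp u hu).trans h2))
    have hdl := delta_le H
    have hdp := delta_pow H
    have hδ : 2 * ((1 : ℚ) / 2 ^ (3 * h)) ^ 2 ^ π.D ≤ 1 := by
      refine hdp.trans ?_
      rw [div_le_one hQJ]
      have : 1 ≤ π.Q ^ π.J := Nat.one_le_pow _ _ (by have := Q_four H; omega)
      exact_mod_cast this
    have hS' := hS π.N π.n π.Q π.J π.D π.tau (π.cnC al be mm (π.chs al be mm)) mm
      (1 / 2 ^ (3 * h)) H.N1 (Q_four H) (by positivity)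
      (fun i _ u _ v _ => cnC_diag al be mm _ i u v) hpass hsum hdl hδ
    have hent : ∀ v ∈ range π.N,
        |(π.stg al be B0 (k + 1) A u v : ℚ) / (π.Q : ℚ) ^ π.J -
          prq π.N (fun p a b => (mm p a b : ℚ) / (π.Q : ℚ) ^ π.J) 0 π.n u v| ≤
          2 / (π.Q : ℚ) ^ π.J := by
      intro v hv
      have h1 := hS' u hu v (mem_range.1 hv)
      have h2 : (π.stg al be B0 (k + 1) A u v) =
          nx π.N π.n π.Q π.J π.D (π.cnC al be mm (π.chs al be mm)) mm u v := rfl
      rw [h2]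
      refine h1.trans ?_
      have e : (2 : ℚ) / (π.Q : ℚ) ^ π.J = 1 / (π.Q : ℚ) ^ π.J + 1 / (π.Q : ℚ) ^ π.J := by ring
      rw [e]
      exact add_le_add hdp le_rfl
    have hprt := pert (A := fun p a b => (mm p a b : ℚ) / (π.Q : ℚ) ^ π.J) hPst hr0 hsm hrow
      le_rfl hu
    have hblk : ∀ v ∈ range π.N, prq π.N P 0 π.n u v =
        prq π.N M (A * π.n ^ (k + 1)) (π.n ^ (k + 1)) u v := by
      intro v hv
      rw [hP, prq_mul M (A * π.n ^ (k + 1)) (π.n ^ k) π.n u v (mem_range.1 hv)]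
      congr 1
      rw [pow_succ]; ring
    have htri : ∀ v ∈ range π.N,
        |(π.stg al be B0 (k + 1) A u v : ℚ) / (π.Q : ℚ) ^ π.J -
          prq π.N M (A * π.n ^ (k + 1)) (π.n ^ (k + 1)) u v| ≤
        2 / (π.Q : ℚ) ^ π.J +
          |prq π.N (fun p a b => (mm p a b : ℚ) / (π.Q : ℚ) ^ π.J) 0 π.n u v -
            prq π.N P 0 π.n u v| := by
      intro v hv
      rw [← hblk v hv]
      refine (abs_sub_le _ _ _).trans (add_le_add (hent v hv) le_rfl)
    calc _ ≤ ∑ v ∈ range π.N, (2 / (π.Q : ℚ) ^ π.J +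
          |prq π.N (fun p a b => (mm p a b : ℚ) / (π.Q : ℚ) ^ π.J) 0 π.n u v -
            prq π.N P 0 π.n u v|) := sum_le_sum htri
      _ ≤ π.N * (2 / (π.Q : ℚ) ^ π.J) + 2 * π.n * r := by
          rw [sum_add_distrib, sum_const, card_range, nsmul_eq_mul]
          exact add_le_add le_rfl hprt
      _ = (2 + (4 * (π.n : ℚ)) ^ (k + 1)) * π.N / (π.Q : ℚ) ^ π.J := by
          rw [hr, pow_succ]; ring
      _ ≤ _ := by
          refine div_le_div_of_nonneg_right ?_ hQJ.le
          refine mul_le_mul_of_nonneg_right ?_ (Nat.cast_nonneg _)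
          have h4 : (1 : ℚ) ≤ 4 * (π.n : ℚ) := by linarith
          have h5 : (1 : ℚ) ≤ (4 * (π.n : ℚ)) ^ k := one_le_pow₀ h4
          have h6 : (2 : ℚ) ≤ (4 * (π.n : ℚ)) ^ (k + 1) := by
            rw [pow_succ]
            nlinarith
          linarith

theorem modK2 (hS : ModS) : ModK2 := by
  intro π h al be B0 M K H hKs hM h0 k hk hf A hA u hu v hv
  have h1 := rows hS H hKs hM h0 k hk hf A hA u hu
  refine le_trans ?_ h1
  exact single_le_sum (f := fun v => |(π.stg al be B0 k A u v : ℚ) / (π.Q : ℚ) ^ π.J -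
    prq π.N M (A * π.n ^ k) (π.n ^ k) u v|) (fun _ _ => abs_nonneg _) (mem_range.2 hv)

end Vale.Agent.P313.MW.H638
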