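import Vale.Agent.P313.H638.K2

/-!
Module K3 of the medium width theorem: some pool passes all tests.
-/

namespace Vale.Agent.P313.MW.H638

open Finset

theorem autc_le (N Q : ℕ) (M : ℕ → ℕ → ℕ → ℚ) (p u x : ℕ) : autc N Q M p u x ≤ N := by
  unfold autc
  split_ifs
  · exact (card_filter_le _ _).trans (by rw [card_range])
  · exact le_rfl

/-- The family of all blocks. -/
def blocks (n s : ℕ) : Finset (ℕ × ℕ) :=
  (range s ×ˢ range (n ^ (s - 1))).filter fun a => a.2 < n ^ (s - a.1 - 1)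

theorem blocks_card (n s : ℕ) : #(blocks n s) ≤ s * n ^ (s - 1) := by
  refine (card_filter_le _ _).trans ?_
  rw [card_product, card_range, card_range]

theorem mem_blocks {n s k A : ℕ} (hn : 0 < n) (hk : k < s) (hA : A < n ^ (s - k - 1)) :
    (k, A) ∈ blocks n s := by
  refine mem_filter.2 ⟨mem_product.2 ⟨mem_range.2 hk, mem_range.2 ?_⟩, hA⟩
  exact hA.trans_le (Nat.pow_le_pow_right hn (by omega))

section
variable {π : Prm} {h : ℕ} (H : π.Num h)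
include H

theorem numC1 : ((2 ^ (π.s + 3) : ℕ) : ℚ) * ((2 : ℚ) ^ π.s + 1) ^ 2 * ((π.N : ℚ) + 1) ^ 2 ≤
    π.Q * (1 / 2 ^ (10 * h) : ℚ) ^ 2 := by
  have h1 : (2 : ℚ) ^ π.s + 1 ≤ 2 * 2 ^ h := by
    have a1 : (2 : ℚ) ^ π.s ≤ 2 ^ h := pow_le_pow_right₀ (by norm_num) H.sh
    have a2 : (1 : ℚ) ≤ 2 ^ h := one_le_pow₀ (by norm_num)
    linarith
  have h2 : (π.N : ℚ) + 1 ≤ 2 * 2 ^ h := by
    have a1 : (π.N : ℚ) ≤ 2 ^ h := by exact_mod_cast H.Nh
    have a2 : (1 : ℚ) ≤ 2 ^ h := one_le_pow₀ (by norm_num)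
    linarith
  have h3 : ((2 ^ (π.s + 3) : ℕ) : ℚ) ≤ 2 ^ (h + 3) := by
    push_cast
    exact pow_le_pow_right₀ (by norm_num) (by have := H.sh; omega)
  have h4 : (2 : ℚ) ^ (40 * h) ≤ π.Q := by exact_mod_cast H.Q1
  calc ((2 ^ (π.s + 3) : ℕ) : ℚ) * ((2 : ℚ) ^ π.s + 1) ^ 2 * ((π.N : ℚ) + 1) ^ 2
      ≤ 2 ^ (h + 3) * (2 * 2 ^ h) ^ 2 * (2 * 2 ^ h) ^ 2 := by gcongr
    _ = 2 ^ (5 * h + 7) := by ring
    _ ≤ 2 ^ (20 * h) := pow_le_pow_right₀ (by norm_num) (by have := H.h10; omega)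
    _ = 2 ^ (40 * h) * (1 / 2 ^ (10 * h) : ℚ) ^ 2 := by
        rw [div_pow, one_pow, ← pow_mul, mul_one_div, eq_div_iff (by positivity), ← pow_add]
        congr 1; ring
    _ ≤ _ := mul_le_mul_of_nonneg_right h4 (by positivity)

theorem numC2 : #(blocks π.n π.s) * 2 ^ (2 * π.s) < (2 ^ (π.s + 3)) ^ (π.s + 1) := by
  have hs := H.s1
  have h1 : π.s < 2 ^ π.s := Nat.lt_two_pow_self
  calc #(blocks π.n π.s) * 2 ^ (2 * π.s) ≤ π.s * π.n ^ (π.s - 1) * 2 ^ (2 * π.s) :=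
        Nat.mul_le_mul_right _ (blocks_card _ _)
    _ < 2 ^ π.s * π.n ^ (π.s - 1) * 2 ^ (2 * π.s) := by
        refine Nat.mul_lt_mul_of_pos_right (Nat.mul_lt_mul_of_pos_right h1 ?_) (by positivity)
        exact Nat.pow_pos (Nat.two_pow_pos _)
    _ = 2 ^ (π.s + π.s * (π.s - 1) + 2 * π.s) := by
        show 2 ^ π.s * (2 ^ π.s) ^ (π.s - 1) * 2 ^ (2 * π.s) = _
        rw [← pow_mul, ← pow_add, ← pow_add]
    _ ≤ 2 ^ ((π.s + 3) * (π.s + 1)) := by
        refine Nat.pow_le_pow_right (by norm_num) ?_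
        have : π.s * (π.s - 1) ≤ π.s * π.s := Nat.mul_le_mul_left _ (by omega)
        nlinarith
    _ = _ := by rw [pow_mul]

theorem numC3 : (2 : ℚ) ^ π.s * (((π.N : ℚ) + 1) * (1 / 2 ^ (10 * h))) ≤ 2 / 2 ^ (8 * h) := by
  have h1 : (2 : ℚ) ^ π.s ≤ 2 ^ h := pow_le_pow_right₀ (by norm_num) H.sh
  have h2 : (π.N : ℚ) + 1 ≤ 2 * 2 ^ h := by
    have a1 : (π.N : ℚ) ≤ 2 ^ h := by exact_mod_cast H.Nh
    have a2 : (1 : ℚ) ≤ 2 ^ h := one_le_pow₀ (by norm_num)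
    linarith
  calc (2 : ℚ) ^ π.s * (((π.N : ℚ) + 1) * (1 / 2 ^ (10 * h)))
      ≤ 2 ^ h * (2 * 2 ^ h * (1 / 2 ^ (10 * h))) := by gcongr
    _ = 2 / 2 ^ (8 * h) := by
        have e : (2 : ℚ) ^ (10 * h) = 2 ^ h * 2 ^ h * 2 ^ (8 * h) := by
          rw [← pow_add, ← pow_add]; congr 1; ring
        rw [e]
        field_simp

/-- The errors of the stages are at most `1 / Q`. -/
theorem small' {k : ℕ} (hk : k < π.s) :
    2 * (4 * (π.n : ℚ)) ^ k * π.N / (π.Q : ℚ) ^ π.J ≤ 1 / π.Q := by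
  have hQ := Q_pos H
  rw [H.J, pow_succ, div_le_div_iff₀ (by positivity) hQ, one_mul]
  refine mul_le_mul_of_nonneg_right ?_ hQ.le
  have h1 : 2 * (4 * π.n) ^ k * π.N ≤ π.Q ^ π.s := by
    have e1 : 4 * π.n = 2 ^ (π.s + 2) := by
      show 4 * 2 ^ π.s = _
      rw [pow_add]; ring
    rw [e1]
    calc 2 * (2 ^ (π.s + 2)) ^ k * π.N ≤ 2 * (2 ^ (π.s + 2)) ^ k * 2 ^ h :=
          Nat.mul_le_mul_left _ H.Nh
      _ = 2 ^ (1 + (π.s + 2) * k + h) := by rw [← pow_mul]; ring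
      _ ≤ 2 ^ (40 * h * π.s) := by
          refine Nat.pow_le_pow_right (by norm_num) ?_
          have a1 := H.h10
          have a2 := H.sh
          have a3 := H.s1
          have a4 : (π.s + 2) * k ≤ (π.s + 2) * π.s := Nat.mul_le_mul_left _ hk.le
          nlinarith
      _ = (2 ^ (40 * h)) ^ π.s := by rw [pow_mul]
      _ ≤ _ := Nat.pow_le_pow_left H.Q1 _
  exact_mod_cast h1

end

theorem modK3 (hS : ModS) (hC : ModC) (hK1 : ModK1) : ModK3 := by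
  intro π h B0 M H hM h0
  have hnpos : 0 < π.n := Nat.two_pow_pos _
  have hK2 := modK2 hS
  obtain ⟨al, be, hab, hpool⟩ := hC (ℕ × ℕ) (blocks π.n π.s)
    (fun a => autc π.N π.Q fun p => prq π.N M ((a.2 * π.n + p) * π.n ^ a.1) (π.n ^ a.1))
    π.N π.s π.Q (2 ^ (π.s + 3)) (1 / 2 ^ (10 * h))
    (fun a p u x => autc_le _ _ _ _ _ _) H.Qp H.s1 (by positivity) (by positivity)
    (numC1 H) (numC2 H)
  refine ⟨al, be, hab, ?_⟩
  intro k
  induction k using Nat.strong_induction_on with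
  | _ k ih =>
    intro hk A hA
    obtain ⟨C, hCl, hCg⟩ := hpool (k, A) (mem_blocks hnpos hk hA)
    refine ⟨C, hCl, ?_⟩
    have hf : ∀ k' < k, ∀ A < π.n ^ (π.s - k' - 1),
        π.found al be (fun p u v => π.stg al be B0 k' (A * π.n + p) u v) :=
      fun k' hk' A hA => ih k' hk' (by omega) A hA
    have hsound := hK2 π h al be B0 M π.s H le_rfl hM h0 k hk.le hf
    have hAn : ∀ p < π.n, A * π.n + p < π.n ^ (π.s - k) := by
      intro p hp
      have e : π.s - k = π.s - k - 1 + 1 := by omega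
      rw [e, pow_succ]
      have : (A + 1) * π.n ≤ π.n ^ (π.s - k - 1) * π.n := Nat.mul_le_mul_right _ hA
      rw [Nat.succ_mul] at this
      omega
    refine hK1 π h al be _ (fun p => prq π.N M ((A * π.n + p) * π.n ^ k) (π.n ^ k)) C H ?_ ?_ ?_
    · intro p hp u hu
      have hle : (A * π.n + p) * π.n ^ k + π.n ^ k ≤ π.n ^ π.s := by
        have h1 : (A * π.n + p + 1) * π.n ^ k ≤ π.n ^ (π.s - k) * π.n ^ k :=
          Nat.mul_le_mul_right _ (hAn p hp)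
        rw [← pow_add, Nat.sub_add_cancel hk.le, Nat.succ_mul] at h1
        exact h1
      exact ⟨fun v hv => prq_nonneg hM hle hv, prq_sum hM hle hu⟩
    · intro p hp u hu v hv
      exact (hsound (A * π.n + p) (hAn p hp) u hu v hv).trans (small' H hk)
    · intro i t hit u hu
      exact (hCg i t hit u hu).trans (numC3 H)

end Vale.Agent.P313.MW.H638
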