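import Vale.Agent.P313.H463.MW.MStmt

/-!
The assumptions of the stack machine for the recursion of the medium width theorem.
-/

namespace Vale.Agent.P313.MW.H638

/-- Bounds for the addresses. -/
def bdM (π : Prm) (i : ℕ) : ℕ := π.n ^ (π.s - (i + π.LP - 1) / π.LP)

theorem n_pos (π : Prm) : 0 < π.n := Nat.two_pow_pos _

theorem LP_pos (π : Prm) : 0 < π.LP := by
  unfold Prm.LP
  omega

theorem bdM_mul (π : Prm) (k : ℕ) : bdM π (k * π.LP) = π.n ^ (π.s - k) := by
  unfold bdM
  congr 2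
  have h := LP_pos π
  have e : k * π.LP + π.LP - 1 = π.LP * k + (π.LP - 1) := by
    rw [mul_comm]; omega
  rw [e, Nat.mul_add_div h, Nat.div_eq_of_lt (by omega), add_zero]

theorem bdM_nine (π : Prm) (k : ℕ) : bdM π (k * π.LP + 9) = π.n ^ (π.s - k - 1) := by
  unfold bdM
  rw [Nat.sub_sub]
  congr 2
  have h : 12 ≤ π.LP := by
    unfold Prm.LP
    omega
  have e : k * π.LP + 9 + π.LP - 1 = π.LP * (k + 1) + 8 := by
    rw [mul_comm k, mul_add, mul_one]; omega
  rw [e, Nat.mul_add_div (by omega), Nat.div_eq_of_lt (by omega), add_zero]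

theorem pk8_lt {X : ℕ} (hX : 0 < X) (a b c d e f g h : ℕ) :
    pk X [a, b, c, d, e, f, g, h] < X ^ 8 := pk_lt hX _

theorem ite_lt' {c : Prop} [Decidable c] {a b m : ℕ} (ha : a < m) (hb : b < m) :
    (if c then a else b) < m := by
  split_ifs <;> assumption

theorem qryL_lt {π : Prm} {X : ℕ} (hX : 0 < X) (al be : ℕ → ℕ) (l kd C i j u v e w q s : ℕ) :
    π.qryL X al be l kd C i j u v e w q s < X ^ 8 := by
  unfold Prm.qryL
  repeat' with_reducible first | exact pk8_lt hX _ _ _ _ _ _ _ _ | apply ite_lt'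

theorem rcn_ok {π : Prm} {X : ℕ} (hX : 2 ≤ X) (al be : ℕ → ℕ) (bs : ℕ → ℕ → ℕ) {top : ℕ}
    (htop : top < X ^ 8) (hs : top ≤ π.s * π.LP) :
    RecA.Ok (π.rcn X al be bs) (π.n ^ π.s) (X ^ 8) (X ^ 4) top (bdM π) := by
  have h0 : 0 < X := by omega
  have h8 : 0 < X ^ 8 := by positivity
  have hn := n_pos π
  have hLP := LP_pos π
  refine
    { htwo := hX.trans (Nat.le_self_pow (by norm_num) X)
      htop := htop
      hqn := Nat.pow_lt_pow_right (by omega) (by norm_num)
      hqn1 := Nat.one_le_pow _ _ h0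
      hbase := fun A a => Nat.mod_lt _ h8
      hs0 := fun i a => h8
      hqry := fun i a q s => qryL_lt h0 _ _ _ _ _ _ _ _ _ _ _ _ _
      hupd := fun i a q s r => Nat.mod_lt _ h8
      hout := fun i a s => Nat.mod_lt _ h8
      had := ?_
      hbd := ?_
      hMa := fun i _ => Nat.pow_le_pow_right hn (Nat.sub_le _ _) }
  · intro i a
    show (if i % π.LP = 0 then fd X a 2 % π.n else 0) < if i % π.LP = 0 then π.n else 1
    split_ifs
    · exact Nat.mod_lt _ hn
    · exact Nat.one_pos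
  · intro i hi
    show bdM π (i + 1) * (if i % π.LP = 0 then π.n else 1) ≤ bdM π i
    split_ifs with hc
    · obtain ⟨k, rfl⟩ : ∃ k, i = k * π.LP := by
        obtain ⟨k, hk⟩ := Nat.dvd_of_mod_eq_zero hc
        exact ⟨k, by rw [hk, mul_comm]⟩
      have hk : k < π.s := by
        by_contra hcon
        have : π.s * π.LP ≤ k * π.LP := Nat.mul_le_mul_right _ (not_lt.1 hcon)
        omega
      have e1 : bdM π (k * π.LP + 1) = π.n ^ (π.s - (k + 1)) := by
        unfold bdM
        congr 2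
        have e : k * π.LP + 1 + π.LP - 1 = π.LP * (k + 1) := by
          rw [mul_comm k, mul_add, mul_one]; omega
        rw [e, Nat.mul_div_cancel_left _ hLP]
      rw [bdM_mul, e1, ← pow_succ]
      exact le_of_eq (by congr 1; omega)
    · rw [mul_one]
      unfold bdM
      refine Nat.pow_le_pow_right hn (Nat.sub_le_sub_left ?_ _)
      exact Nat.div_le_div_right (by omega)

/-- The stack machine computes the values of the recursion. -/
theorem run_rcn {π : Prm} {X : ℕ} (hX : 2 ≤ X) (al be : ℕ → ℕ) (bs : ℕ → ℕ → ℕ) {top M : ℕ}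
    (htop : top < X ^ 8) (hs : top ≤ π.s * π.LP)
    (hM : π.n ^ π.s * (X ^ 8) ^ (3 * top + 3) ≤ M) (hM2 : RecD.tt (X ^ 4) top ≤ M) {A a : ℕ}
    (hA : A < bdM π top) (ha : a < X ^ 8) :
    (π.rcn X al be bs).run (π.n ^ π.s) (X ^ 8) (X ^ 4) top M A a = π.V X al be bs top A a :=
  RecA.run_top (rcn_ok hX al be bs htop hs) hM hM2 hA ha

end Vale.Agent.P313.MW.H638
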