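import Vale.Agent.P313.H463.MW.MStmt

/-!
The pool of hash functions as a number: only the members below `2 s` matter.
-/

namespace Vale.Agent.P313.MW.H638

open Finset

theorem hst_congr {Q : ℕ} {al be al' be' : ℕ → ℕ} {C t c : ℕ} (h1 : al c = al' c)
    (h2 : be c = be' c) (x : ℕ) : hst Q al be C t c x = hst Q al' be' C t c x := by
  unfold hst
  rw [h1, h2]

theorem lab_congr {Q : ℕ} {al be al' be' : ℕ → ℕ} {C t r : ℕ}
    (h : ∀ c < r, al c = al' c ∧ be c = be' c) (x : ℕ) :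
    lab Q al be C t r x = lab Q al' be' C t r x := by
  induction r generalizing x with
  | zero => rfl
  | succ r ih =>
    show lab Q al be C t r (hst Q al be C t r x) = lab Q al' be' C t r (hst Q al' be' C t r x)
    have h1 := h r (Nat.lt_succ_self r)
    rw [hst_congr h1.1 h1.2, ih fun c hc => h c (by omega)]

theorem cw_congr {Q r : ℕ} {al be al' be' : ℕ → ℕ}
    (h : ∀ c < r, al c = al' c ∧ be c = be' c) (T : ℕ → ℕ → ℕ → ℕ) (C i t u v : ℕ) :
    cw Q r al be T C i t u v = cw Q r al' be' T C i t u v := by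
  unfold cw
  have e : ∀ x, (fun t => lab Q al be C t r x) = fun t => lab Q al' be' C t r x := by
    intro x
    funext t
    exact lab_congr h x
  simp only [e]

section
variable {π : Prm} {al be al' be' : ℕ → ℕ} (h : ∀ c < 2 * π.s, al c = al' c ∧ be c = be' c)
include h

theorem cnC_congr : π.cnC al be = π.cnC al' be' := by
  funext mm C i j u v
  exact cw_congr h _ _ _ _ _ _

theorem pass_congr : π.pass al be = π.pass al' be' := by
  funext mm C
  unfold Prm.pass
  rw [cnC_congr h]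

theorem found_congr : π.found al be = π.found al' be' := by
  funext mm
  unfold Prm.found
  rw [pass_congr h]

theorem chs_congr : π.chs al be = π.chs al' be' := by
  funext mm
  unfold Prm.chs
  rw [pass_congr h]

theorem nxt_congr : π.nxt al be = π.nxt al' be' := by
  funext mm u v
  unfold Prm.nxt
  rw [cnC_congr h, chs_congr h]

theorem stg_congr (B0 : ℕ → ℕ → ℕ → ℕ) : π.stg al be B0 = π.stg al' be' B0 := by
  funext k
  induction k with
  | zero => rfl
  | succ k ih =>
    funext A u v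
    show π.nxt al be (fun p u v => π.stg al be B0 k (A * π.n + p) u v) u v =
      π.nxt al' be' (fun p u v => π.stg al' be' B0 k (A * π.n + p) u v) u v
    rw [nxt_congr h, ih]

end

/-- The number with the given digits. -/
def dsum (Q : ℕ) (d : ℕ → ℕ) (m : ℕ) : ℕ := ∑ i ∈ range m, d i * Q ^ i

theorem dsum_succ' (Q : ℕ) (d : ℕ → ℕ) (m : ℕ) :
    dsum Q d (m + 1) = d 0 + Q * dsum Q (fun i => d (i + 1)) m := by
  unfold dsum
  rw [sum_range_succ', pow_zero, mul_one, add_comm, mul_sum]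
  congr 1
  exact sum_congr rfl fun i _ => by rw [pow_succ]; ring

theorem dsum_lt {Q : ℕ} {d : ℕ → ℕ} (hd : ∀ i, d i < Q) (m : ℕ) : dsum Q d m < Q ^ m := by
  induction m generalizing d with
  | zero => simp [dsum]
  | succ m ih =>
    rw [dsum_succ']
    exact RecD.dig_lt (hd 0) (ih fun i => hd (i + 1))

theorem dsum_dig {Q : ℕ} {d : ℕ → ℕ} (hd : ∀ i, d i < Q) {m k : ℕ} (hk : k < m) :
    dsum Q d m / Q ^ k % Q = d k := by
  induction k generalizing d m with
  | zero =>
    obtain ⟨m, rfl⟩ : ∃ m', m = m' + 1 := ⟨m - 1, by omega⟩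
    rw [dsum_succ', pow_zero, Nat.div_one, RecD.dig_mod (hd 0)]
  | succ k ih =>
    obtain ⟨m, rfl⟩ : ∃ m', m = m' + 1 := ⟨m - 1, by omega⟩
    rw [dsum_succ', pow_succ', ← Nat.div_div_eq_div_mul, RecD.dig_div (hd 0)]
    exact ih (fun i => hd (i + 1)) (by omega)

/-- A pool is given by a number. -/
theorem exists_pool_num {Q s : ℕ} {al be : ℕ → ℕ} (h : ∀ c, al c < Q ∧ be c < Q) :
    ∃ z < Q ^ (4 * s), ∀ c < 2 * s, al c = alz Q z c ∧ be c = bez Q z c := by
  have hd : ∀ i, (fun i => if i % 2 = 0 then al (i / 2) else be (i / 2)) i < Q := by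
    intro i
    show (if i % 2 = 0 then al (i / 2) else be (i / 2)) < Q
    split_ifs
    · exact (h _).1
    · exact (h _).2
  refine ⟨dsum Q (fun i => if i % 2 = 0 then al (i / 2) else be (i / 2)) (4 * s),
    dsum_lt hd _, ?_⟩
  intro c hc
  unfold alz bez
  rw [dsum_dig hd (by omega), dsum_dig hd (by omega)]
  constructor
  · rw [if_pos (by omega), show 2 * c / 2 = c by omega]
  · rw [if_neg (by omega), show (2 * c + 1) / 2 = c by omega]

theorem alz_lt {Q : ℕ} (hQ : 0 < Q) (z c : ℕ) : alz Q z c < Q := Nat.mod_lt _ hQ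

theorem bez_lt {Q : ℕ} (hQ : 0 < Q) (z c : ℕ) : bez Q z c < Q := Nat.mod_lt _ hQ

/-- Module K3 with a pool given by a number. -/
theorem pool_num (hK3 : ModK3) {π : Prm} {h : ℕ} {B0 : ℕ → ℕ → ℕ → ℕ} {M : ℕ → ℕ → ℕ → ℚ}
    (H : π.Num h) (hM : Stoch π.N (π.n ^ π.s) M)
    (h0 : ∀ A < π.n ^ π.s, ∀ u < π.N, ∀ v < π.N,
      |(B0 A u v : ℚ) / (π.Q : ℚ) ^ π.J - M A u v| ≤ 1 / (π.Q : ℚ) ^ π.J) :
    ∃ z < π.Q ^ (4 * π.s), ∀ k < π.s, ∀ A < π.n ^ (π.s - k - 1),
      π.found (alz π.Q z) (bez π.Q z)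
        (fun p u v => π.stg (alz π.Q z) (bez π.Q z) B0 k (A * π.n + p) u v) := by
  obtain ⟨al, be, hab, hf⟩ := hK3 π h B0 M H hM h0
  obtain ⟨z, hz, hc⟩ := exists_pool_num (s := π.s) hab
  refine ⟨z, hz, fun k hk A hA => ?_⟩
  have h1 := hf k hk A hA
  rwa [found_congr hc, stg_congr hc] at h1

end Vale.Agent.P313.MW.H638
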