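import Vale.Agent.P313.H463.MW.MStmt

/-!
Module T of the medium width theorem: the true matrices of the input.
-/

namespace Vale.Agent.P313.MW.H638

open Finset

theorem num_lt (x : List Bool) (i l : ℕ) : num x i l < 2 ^ l := by
  induction l with
  | zero => simp [num]
  | succ l ih =>
    have h1 : num x i (l + 1) = num x i l + bit x (i + l) * 2 ^ l := sum_range_succ _ _
    have h2 : bit x (i + l) ≤ 1 := by
      unfold bit
      split_ifs <;> omega
    have h3 : bit x (i + l) * 2 ^ l ≤ 1 * 2 ^ l := Nat.mul_le_mul_right _ h2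
    rw [h1, pow_succ]
    omega

theorem entry_lt (x : List Bool) (W K g t u v : ℕ) : entry x W K g t u v < 2 ^ (K + 1) :=
  num_lt _ _ _

theorem numT_lt (x : List Bool) (lam W K g t u v : ℕ) :
    numT x lam W K g t u v < 2 ^ (K + 1) := by
  have h0 : 0 < 2 ^ K := by positivity
  have h1 : 2 ^ (K + 1) = 2 * 2 ^ K := by rw [pow_succ]; ring
  have h2 := entry_lt x W K g t u v
  unfold numT
  split_ifs <;> omega

theorem baseM_lt {Q : ℕ} (hQ : 2 ≤ Q) (J : ℕ) (x : List Bool) (lam W K g A u v : ℕ) :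
    baseM Q J x lam W K g A u v < Q ^ (J + 1) := by
  unfold baseM
  rw [Nat.div_lt_iff_lt_mul (by positivity)]
  have h1 := numT_lt x lam W K g A u v
  have hQJ : 0 < Q ^ J := Nat.pow_pos (by omega)
  calc numT x lam W K g A u v * Q ^ J < 2 ^ (K + 1) * Q ^ J := Nat.mul_lt_mul_of_pos_right h1 hQJ
    _ = 2 * (Q ^ J * 2 ^ K) := by rw [pow_succ]; ring
    _ ≤ Q * (Q ^ J * 2 ^ K) := Nat.mul_le_mul_right _ hQ
    _ = Q ^ (J + 1) * 2 ^ K := by rw [pow_succ]; ring

theorem baseM_near {Q : ℕ} (hQ : 2 ≤ Q) (J : ℕ) (x : List Bool) (lam W K g A u v : ℕ) :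
    |(baseM Q J x lam W K g A u v : ℚ) / (Q : ℚ) ^ J - trueM x lam W K g A u v| ≤
      1 / (Q : ℚ) ^ J := by
  have hQ' : (0 : ℚ) < (Q : ℚ) ^ J := by
    have : (0 : ℚ) < Q := by exact_mod_cast (by omega : 0 < Q)
    positivity
  have h2 : (0 : ℚ) < 2 ^ K := by positivity
  have hlo := Nat.div_mul_le_self (numT x lam W K g A u v * Q ^ J) (2 ^ K)
  have hhi := Nat.lt_div_mul_add (a := numT x lam W K g A u v * Q ^ J)
    (b := 2 ^ K) (by positivity)
  have hlo' : (baseM Q J x lam W K g A u v : ℚ) * 2 ^ K ≤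
      (numT x lam W K g A u v : ℚ) * (Q : ℚ) ^ J := by
    exact_mod_cast hlo
  have hhi' : (numT x lam W K g A u v : ℚ) * (Q : ℚ) ^ J <
      (baseM Q J x lam W K g A u v : ℚ) * 2 ^ K + 2 ^ K := by
    exact_mod_cast hhi
  have e : (baseM Q J x lam W K g A u v : ℚ) / (Q : ℚ) ^ J - trueM x lam W K g A u v =
      ((baseM Q J x lam W K g A u v : ℚ) * 2 ^ K -
        (numT x lam W K g A u v : ℚ) * (Q : ℚ) ^ J) / ((Q : ℚ) ^ J * 2 ^ K) := by
    unfold trueM
    field_simp
  rw [e, abs_div, abs_of_pos (mul_pos hQ' h2), div_le_div_iff₀ (mul_pos hQ' h2) hQ', one_mul]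
  have h3 : |(baseM Q J x lam W K g A u v : ℚ) * 2 ^ K -
      (numT x lam W K g A u v : ℚ) * (Q : ℚ) ^ J| ≤ 2 ^ K := by
    rw [abs_le]
    constructor <;> linarith
  calc _ ≤ 2 ^ K * (Q : ℚ) ^ J := mul_le_mul_of_nonneg_right h3 hQ'.le
    _ = _ := by ring

theorem numT_sum {x : List Bool} {lam W K g : ℕ} (h : SubSt x lam W K g) (t : ℕ) {u : ℕ}
    (hu : u < 2 ^ W + 1) : ∑ v ∈ range (2 ^ W + 1), numT x lam W K g t u v = 2 ^ K := by
  by_cases hc : t < 2 ^ lam ∧ u < 2 ^ W
  · have h1 : ∀ v ∈ range (2 ^ W), numT x lam W K g t u v = entry x W K g t u v := by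
      intro v hv
      unfold numT
      rw [if_pos hc, if_pos (mem_range.1 hv)]
    have h2 : numT x lam W K g t u (2 ^ W) =
        2 ^ K - ∑ v ∈ range (2 ^ W), entry x W K g t u v := by
      unfold numT
      rw [if_pos hc, if_neg (lt_irrefl _), if_pos rfl]
    rw [sum_range_succ, sum_congr rfl h1, h2]
    exact Nat.add_sub_of_le (h t hc.1 u hc.2)
  · have h1 : ∀ v ∈ range (2 ^ W + 1), numT x lam W K g t u v = if u = v then 2 ^ K else 0 := by
      intro v _
      unfold numT
      rw [if_neg hc]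
    rw [sum_congr rfl h1, sum_ite_eq, if_pos (mem_range.2 hu)]

theorem stoch_trueM {x : List Bool} {lam W K g : ℕ} (h : SubSt x lam W K g) (m : ℕ) :
    Stoch (2 ^ W + 1) m (trueM x lam W K g) := by
  intro p _ u hu
  refine ⟨fun v _ => by unfold trueM; positivity, ?_⟩
  unfold trueM
  rw [← sum_div, ← Nat.cast_sum, numT_sum h p hu, Nat.cast_pow, Nat.cast_ofNat,
    div_self (by positivity)]

theorem prq_true_le (x : List Bool) (lam W K g : ℕ) {t : ℕ} (ht : t ≤ 2 ^ lam) {u v : ℕ}
    (hv : v < 2 ^ W) :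
    prq (2 ^ W + 1) (trueM x lam W K g) 0 t u v = prodM x W K g t u v := by
  induction t generalizing v with
  | zero => rfl
  | succ t ih =>
    show ∑ s ∈ range (2 ^ W + 1), prq (2 ^ W + 1) (trueM x lam W K g) 0 t u s *
      trueM x lam W K g (0 + t) s v =
      ∑ s ∈ range (2 ^ W), prodM x W K g t u s * ((entry x W K g t s v : ℚ) / 2 ^ K)
    rw [zero_add, sum_range_succ]
    have h1 : trueM x lam W K g t (2 ^ W) v = 0 := by
      unfold trueM numT
      rw [if_neg (by omega), if_neg (by omega), Nat.cast_zero, zero_div]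
    rw [h1, mul_zero, add_zero]
    refine sum_congr rfl fun s hs => ?_
    have hs' := mem_range.1 hs
    rw [ih (by omega) hs']
    congr 1
    unfold trueM numT
    rw [if_pos ⟨by omega, hs'⟩, if_pos hv]

theorem prq_true_ge (x : List Bool) (lam W K g : ℕ) {t : ℕ} (ht : 2 ^ lam ≤ t) {u v : ℕ}
    (hv : v < 2 ^ W) :
    prq (2 ^ W + 1) (trueM x lam W K g) 0 t u v =
      prq (2 ^ W + 1) (trueM x lam W K g) 0 (2 ^ lam) u v := by
  induction t, ht using Nat.le_induction with
  | base => rfl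
  | succ t ht ih =>
    show ∑ s ∈ range (2 ^ W + 1), prq (2 ^ W + 1) (trueM x lam W K g) 0 t u s *
      trueM x lam W K g (0 + t) s v = _
    rw [zero_add]
    have h1 : ∀ s ∈ range (2 ^ W + 1), prq (2 ^ W + 1) (trueM x lam W K g) 0 t u s *
        trueM x lam W K g t s v =
        if s = v then prq (2 ^ W + 1) (trueM x lam W K g) 0 t u v else 0 := by
      intro s _
      unfold trueM numT
      rw [if_neg (by omega)]
      split_ifs with h
      · rw [h, Nat.cast_pow, Nat.cast_ofNat, div_self (by positivity), mul_one]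
      · rw [Nat.cast_zero, zero_div, mul_zero]
    rw [sum_congr rfl h1, sum_ite_eq', if_pos (mem_range.2 (by omega)), ih]

theorem modT : ModT := by
  intro x lam W K g
  refine ⟨fun Q J A u v hQ => baseM_lt hQ J x lam W K g A u v,
    fun Q J A u v hQ => baseM_near hQ J x lam W K g A u v, fun h m => stoch_trueM h m, ?_⟩
  intro _ m hm u _ v hv
  rw [prq_true_ge x lam W K g hm hv, prq_true_le x lam W K g le_rfl hv]

end Vale.Agent.P313.MW.H638
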